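import Crest.Agent.N76.II.LP.Cls
import Crest.Agent.N76.II.Dens

-- ▼ part N76/II/LP/CW
section

/-! # Row 76, Lemma P: one class in one window (helper16). -/

set_option autoImplicit false

open MeasureTheory Set Metric
open scoped ENNReal

namespace Crest.Agent.N76.II.LP

open Crest.Agent.N76.Red (V)
open Crest.Agent.N76.G

variable {d : ℕ}

/-- the numerical relations between the scales of the lowest level -/
structure Num (d : ℕ) (B₀ R B K₀ Km a b aj r : ℝ) : Prop where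
  hR : 1 ≤ R
  hB₀ : B₀ ≤ B
  hB : 1 ≤ B
  hK₀ : 4 * B ≤ K₀
  hK₀S : (d + 1) * K₀ ≤ Ssc (d + 1) R
  hKm : 8 * Km ^ 2 ≤ Ssc (d + 1) R
  hS : B ^ 31 ≤ Ssc (d + 1) R
  hKa : Km ≤ a
  ha1 : 2 * (Ssc (d + 1) R ^ 2 * B ^ 3) ≤ a ^ 2
  ha2 : a ^ 2 ≤ R
  hb1 : 1 ≤ b
  hbB : b ≤ B
  haj : Km ≤ aj
  hab : a * b * (40 * B ^ 30 * Km) ≤ Ssc (d + 1) R ^ 2
  haaj : a ^ 2 * (80 * B ^ 30 * Km) ≤ Ssc (d + 1) R ^ 2 * aj
  hr0 : 0 < r
  hr : r * (10 * B ^ 30 * Km) ≤ Ssc (d + 1) R ^ 2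
  hlog : Real.log ((4 * R + 1) ^ (d + 1) + 1) ≤ B

/-- the lines with bounded direction -/
def B3 (d : ℕ) : Set (Ph d) := {β | ‖β.2‖ ≤ 3}

theorem measurableSet_B3 : MeasurableSet (B3 d) :=
  (isClosed_le (by fun_prop) continuous_const).measurableSet

/-- the coefficient of a class -/
noncomputable def coef (d : ℕ) (θ a' η Cc B K₀ K N φ₀ : ℝ) : ℝ :=
  (Cc * min (n1 η N K₀ K) (n1 η N K₀ K ^ a')) ^ (1 - θ) * N ^ (θ - 2 / ((d : ℝ) + 2)) *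
    φ₀ ^ (θ / 2) + 1 / B ^ 3

/-- conclusion of the class–window lemma -/
def CWOut {ι : Type} (θ a' η Cc C R B K₀ Km a b aj r K N t : ℝ) (X Xc : Finset ι)
    (p : ι → V d × ℝ) (w : ι → ℝ) (Bad : Set (Ph d)) (E : Finset ι) : Prop :=
  MeasurableSet Bad ∧
  Cov E p r (C * Real.sqrt (Km * (Ssc (d + 1) R ^ 2 * B ^ 3) / a ^ 2) * B ^ 71 * R ^ d * a ^ 2
    / r ^ (d + 1)) ∧
  (∀ z ∈ Xc, z ∉ E → ∃ F : Finset (V d), (F.card : ℝ) ≤ 1 / B ^ 3 * aj ^ d ∧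
    ∀ β ∈ Bad, ‖β.2‖ ≤ 3 → ‖pos (p z).2 β - (p z).1‖ ≤ a * b → ∃ ζ ∈ F, ‖β.2 - ζ‖ ≤ 1 / aj) ∧
  ∀ (Y : Finset ι) (H : L2 d) (φ₀ Ef : ℝ), Y ⊆ Xc → 0 ≤ φ₀ → 0 ≤ Ef →
    (∀ z ∈ Y, ∃ Φ : Set (V d), MeasurableSet Φ ∧ volume Φ ≤ ENNReal.ofReal φ₀ ∧
      Φ ⊆ closedBall 0 3 ∧ ∀ c ∈ Xc, dist (p z) (p c) ≤ K →
        ∫ β in {β : Ph d | ‖pos (p c).2 β - (p c).1‖ ≤ b * K ∧ β.2 ∉ Φ},
          ‖co K (p c).2 (loc a t (B3 d \ Bad) H) β‖ ^ 2 ≤ Ef) →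
    En Y p w (fun _ => loc a t (B3 d \ Bad) H) ≤
      C * coef d θ a' η Cc B K₀ K N φ₀ *
        ((∫ β in B3 d, xray (vv X p w (Ssc (d + 1) R ^ 2 * B ^ 3)) (t - a ^ 2) (t + 2 * a ^ 2) β *
          ‖co a t H β‖ ^ 2) + a ^ 2 / (B * Ssc (d + 1) R ^ 2) * ‖H‖ ^ 2)
      + C * (∑ z ∈ Y, w z) * (Ef + Real.exp (-b) * ‖H‖ ^ 2)

/-- the class–window lemma -/
def CW (d : ℕ) : Prop :=
  ∃ θ a' η Cc C B₀ : ℝ, 0 < θ ∧ θ < 1 ∧ θ < 2 / ((d : ℝ) + 2) ∧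
    a' * (1 - θ) + θ < 2 / ((d : ℝ) + 2) ∧ 0 < η ∧ η ≤ 1 / 4 ∧ 0 ≤ Cc ∧ 1 ≤ C ∧
    ∀ R B K₀ Km a b aj r : ℝ, Num d B₀ R B K₀ Km a b aj r →
    ∀ K N t : ℝ, K₀ ≤ K → K ≤ Km → 1 / B ^ 6 ≤ N → N ≤ B →
    ∀ (ι : Type) (X : Finset ι) (p : ι → V d × ℝ) (w : ι → ℝ), Reg R B X p w →
    (∀ u r, 1 ≤ r → r ≤ Ssc (d + 1) R → ms X p w (closedBall u r) ≤ r ^ d) →
    ∀ Xc : Finset ι, Xc ⊆ X →
    (∀ z ∈ Xc, Cl X p w η K₀ (Ssc (d + 1) R) K N z ∧ p z ∈ closedBall (0 : V d × ℝ) R ∧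
      t ≤ (p z).2 ∧ (p z).2 ≤ t + a ^ 2) →
    ∃ (Bad : Set (Ph d)) (E : Finset ι), CWOut θ a' η Cc C R B K₀ Km a b aj r K N t X Xc p w Bad E

theorem xray_affine {W : V d × ℝ → ℝ} (hW : Continuous W) (C κ t₁ t₂ : ℝ) (β : Ph d) :
    xray (fun u => C * (W u + κ)) t₁ t₂ β = C * (xray W t₁ t₂ β + κ * (t₂ - t₁)) := by
  unfold xray
  have h1 : IntervalIntegrable (fun t => W (pos t β, t)) volume t₁ t₂ :=
    (hW.comp (by unfold pos; fun_prop)).intervalIntegrable _ _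
  rw [intervalIntegral.integral_const_mul, intervalIntegral.integral_add h1 (by simp)]
  simp [mul_comm]

theorem xray_const_mul (W : V d × ℝ → ℝ) (C t₁ t₂ : ℝ) (β : Ph d) :
    xray (fun u => C * W u) t₁ t₂ β = C * xray W t₁ t₂ β := by
  unfold xray
  rw [intervalIntegral.integral_const_mul]

theorem continuous_vv {ι : Type*} {X : Finset ι} {p : ι → V d × ℝ} {w : ι → ℝ} (r : ℝ) :
    Continuous (vv X p w r) :=
  (continuous_dens r).rpow_const fun _ => Or.inr (by positivity)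

theorem vv_nonneg {ι : Type*} {X : Finset ι} {p : ι → V d × ℝ} {w : ι → ℝ}
    (hw : ∀ z ∈ X, 0 ≤ w z) {r : ℝ} (hr : 0 < r) (u : V d × ℝ) : 0 ≤ vv X p w r u :=
  Real.rpow_nonneg (dens_nonneg hw hr u) _

open Classical in
/-- the operator bound for one cluster -/
theorem fibre_bound {a' Cc : ℝ}
    (hCD : ∀ (ι : Type) (X : Finset ι) (p : ι → V d × ℝ) (w : ι → ℝ), (∀ z ∈ X, 0 ≤ w z) →
    ∀ N₁ K₀ : ℝ, 0 < N₁ → N₁ ≤ K₀ → 1 ≤ K₀ →
    (∀ u r, 1 ≤ r → r ≤ (d + 1) * K₀ → ms X p w (closedBall u r) ≤ r ^ d) →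
    (∀ z ∈ X, ∀ r, 0 ≤ r →
      ms X p w (closedBall (p z) r) ≤ N₁ * (max 1 (r / K₀)) ^ (1 / 4 : ℝ)) →
    ∀ H : L2 d, En X p w (fun _ => H) ≤ Cc * min N₁ (N₁ ^ a') * ‖H‖ ^ 2)
    {ι : Type} {X Y : Finset ι} {p : ι → V d × ℝ} {w : ι → ℝ} (hw : ∀ z ∈ X, 0 ≤ w z) (hY : Y ⊆ X)
    {η K₀ S K N : ℝ} (hη : 0 < η) (hη1 : η ≤ 1 / 4) (hN : 0 < N) (hNK : 4 * N ≤ K₀) (hK₀ : 1 ≤ K₀)
    (hK : K₀ ≤ K) (hKS : K ≤ S / 4) (hS : (d + 1) * K₀ ≤ S)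
    (hball : ∀ u r, 1 ≤ r → r ≤ S → ms X p w (closedBall u r) ≤ r ^ d)
    (hcl : ∀ z ∈ Y, Cl X p w η K₀ S K N z) (hd : ∀ z ∈ Y, ∀ z' ∈ Y, dist (p z') (p z) ≤ K)
    (H : L2 d) :
    En Y p w (fun _ => H) ≤ Cc * min (n1 η N K₀ K) (n1 η N K₀ K ^ a') * ‖H‖ ^ 2 := by
  have hK0 : 0 < K₀ := by linarith
  have hK' : 0 < K := by linarith
  have hq : (K₀ / K) ^ η ≤ 1 := Real.rpow_le_one (by positivity) ((div_le_one hK').2 hK) hη.le
  have hn : 0 < n1 η N K₀ K := by unfold n1; positivity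
  have hsub : ∀ u r, ms Y p w (closedBall u r) ≤ ms X p w (closedBall u r) := fun u r =>
    II.B.ms_mono hw hY fun _ _ h => h
  have key : ∀ r, K₀ ≤ r → 4 * N * (r / K) ^ η ≤ n1 η N K₀ K * (max 1 (r / K₀)) ^ (1 / 4 : ℝ) := by
    intro r hr
    have h1 : 1 ≤ r / K₀ := (one_le_div hK0).2 hr
    rw [max_eq_right h1]
    unfold n1
    have e : r / K = K₀ / K * (r / K₀) := by field_simp
    rw [e, Real.mul_rpow (by positivity) (by positivity), ← mul_assoc]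
    gcongr
  refine hCD ι Y p w (fun z hz => hw z (hY hz)) _ K₀ hn ?_ hK₀
    (fun u r h1 h2 => (hsub u r).trans (hball u r h1 (h2.trans hS))) ?_ H
  · unfold n1; nlinarith
  · intro z hz r hr
    obtain ⟨-, c2, c3⟩ := hcl z hz
    rcases le_total r K₀ with h1 | h1
    · calc ms Y p w (closedBall (p z) r) ≤ ms X p w (closedBall (p z) K₀) :=
            II.B.ms_mono hw hY fun _ _ h => closedBall_subset_closedBall h1 h
        _ ≤ n1 η N K₀ K := c3 K₀ le_rfl (hK.trans hKS)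
        _ ≤ _ := le_mul_of_one_le_right hn.le (Real.one_le_rpow (le_max_left _ _) (by norm_num))
    · rcases le_total r K with h2 | h2
      · exact ((hsub _ _).trans (c3 r h1 (h2.trans hKS))).trans (key r h1)
      · calc ms Y p w (closedBall (p z) r) ≤ ms X p w (closedBall (p z) K) :=
              II.B.ms_mono hw hY fun i hi _ => hd z hz i hi
          _ ≤ 4 * N * 1 := by linarith
          _ ≤ 4 * N * (r / K) ^ η := by
              gcongr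
              exact Real.one_le_rpow ((one_le_div hK').2 h2) hη.le
          _ ≤ _ := key r h1

theorem integral_indicator_weight {A : Set (Ph d)} (hA : MeasurableSet A) (W : Ph d → ℝ)
    (c : Ph d → ℂ) : ∫ β, W β * ‖A.indicator c β‖ ^ 2 = ∫ β in A, W β * ‖c β‖ ^ 2 := by
  rw [← integral_indicator hA]
  congr 1; ext β
  by_cases h : β ∈ A <;> simp [h]

theorem num_facts {S B K Km a b aj r R : ℝ} (hB : 1 ≤ B) (hK1 : 1 ≤ K) (hKm : K ≤ Km)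
    (hKmS : 8 * Km ^ 2 ≤ S) (hKa : Km ≤ a) (ha1 : 2 * (S ^ 2 * B ^ 3) ≤ a ^ 2) (hb1 : 1 ≤ b)
    (haj : Km ≤ aj) (hab : a * b * (40 * B ^ 30 * Km) ≤ S ^ 2)
    (haaj : a ^ 2 * (80 * B ^ 30 * Km) ≤ S ^ 2 * aj) (hr0 : 0 < r)
    (hr : r * (10 * B ^ 30 * Km) ≤ S ^ 2) (hR : 1 ≤ R) :
    8 * K ^ 2 ≤ S ∧ K ≤ S / 4 ∧ K * a * B ^ 30 ≤ S ^ 2 ∧ 2 * (S ^ 2 * B ^ 2) ≤ a ^ 2 ∧
    r ≤ S ^ 2 / B ^ 30 / (10 * K) ∧ r ≤ 2 * a ^ 2 ∧ S ^ 2 * B ^ 3 ≤ 2 * a ^ 2 ∧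
    a * b ≤ S ^ 2 / B ^ 30 / (10 * K) / 4 ∧ 2 * a ^ 2 / aj ≤ S ^ 2 / B ^ 30 / (10 * K) / 4 ∧
    2 * R / (K / 2) ≤ 4 * R ∧ S ^ 2 ≤ S ^ 2 * B ^ 3 := by
  have hKS : 8 * K ^ 2 ≤ S := le_trans (by gcongr) hKmS
  have hB30 : 1 ≤ B ^ 30 := one_le_pow₀ hB
  have hB3 : 1 ≤ B ^ 3 := one_le_pow₀ hB
  have ha0 : 0 < a := by linarith
  have haj0 : 0 < aj := by linarith
  have hK0 : 0 < K := by linarith
  have hS0 : 0 < S := lt_of_lt_of_le (by positivity) hKS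
  have h7 : S ^ 2 ≤ S ^ 2 * B ^ 3 := le_mul_of_one_le_right (by positivity) hB3
  have hBK : B ^ 30 * K ≤ B ^ 30 * Km := by gcongr
  have hBK1 : 1 ≤ B ^ 30 * K := one_le_mul_of_one_le_of_one_le hB30 hK1
  have hrρ : r ≤ S ^ 2 := le_trans (le_mul_of_one_le_right hr0.le (by linarith)) hr
  have hsq : 0 ≤ S ^ 2 * B ^ 3 := by positivity
  refine ⟨hKS, by nlinarith, ?_, ?_, ?_, by linarith, by linarith, ?_, ?_, ?_, h7⟩
  · refine le_trans ?_ hab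
    calc K * a * B ^ 30 = a * 1 * (B ^ 30 * K) := by ring
      _ ≤ a * b * (40 * B ^ 30 * Km) := by gcongr; linarith
  · refine le_trans ?_ ha1
    gcongr
    norm_num
  · rw [div_div, le_div_iff₀ (by positivity)]
    exact le_trans (mul_le_mul_of_nonneg_left (by linarith) hr0.le) hr
  · rw [div_div, div_div, le_div_iff₀ (by positivity)]
    exact le_trans (mul_le_mul_of_nonneg_left (by linarith) (by positivity)) hab
  · rw [div_div, div_div, div_le_div_iff₀ haj0 (by positivity)]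
    refine le_trans ?_ haaj
    calc 2 * a ^ 2 * (B ^ 30 * (10 * K * 4)) = a ^ 2 * (80 * (B ^ 30 * K)) := by ring
      _ ≤ _ := mul_le_mul_of_nonneg_left (by linarith) (by positivity)
  · rw [div_le_iff₀ (by linarith)]; nlinarith

theorem fin_ineq {Ca C₀ x κ : ℝ} (hCa : 1 ≤ Ca) (hC₀ : 1 ≤ C₀) (hx : 0 ≤ x) (hκ : 0 ≤ κ) :
    Ca * (C₀ * (C₀ * (x + 3 * κ))) + 4 * Ca * κ ≤ 7 * Ca * C₀ ^ 2 * (x + κ) := by
  have h4 : 0 ≤ C₀ ^ 2 - 1 := by linarith [one_le_pow₀ (n := 2) hC₀]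
  have h1 : 0 ≤ Ca * κ * (C₀ ^ 2 - 1) := by positivity
  have h2 : 0 ≤ Ca * C₀ ^ 2 * x := by positivity
  nlinarith

theorem const_ineq {Ca C₀ : ℝ} (hCa : 1 ≤ Ca) (hC₀ : 1 ≤ C₀) :
    1 ≤ 7 * Ca * C₀ ^ 3 ∧ 2 * Ca * C₀ ^ 2 ≤ 7 * Ca * C₀ ^ 3 ∧ C₀ ≤ 7 * Ca * C₀ ^ 3 := by
  have h1 : C₀ ^ 2 ≤ C₀ ^ 3 := pow_le_pow_right₀ hC₀ (by norm_num)
  have h2 : C₀ ≤ C₀ ^ 3 := by simpa using pow_le_pow_right₀ hC₀ (by norm_num : 1 ≤ 3)
  have h3 : C₀ ^ 3 ≤ Ca * C₀ ^ 3 := le_mul_of_one_le_left (by positivity) hCa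
  have h4 : Ca * C₀ ^ 2 ≤ Ca * C₀ ^ 3 := by gcongr
  refine ⟨by linarith, by linarith, by linarith⟩

set_option maxHeartbeats 800000 in
theorem cw (hCD : CD d) (hL : L0 d) (hA : AV d) : CW d := by
  classical
  obtain ⟨a', Cc, ha'0, ha', hCc, hCD⟩ := hCD
  set q : ℝ := 2 / ((d : ℝ) + 2) with hq
  have hq1 : q ≤ 1 := by
    rw [hq, div_le_one (by positivity)]; linarith [(Nat.cast_nonneg d : (0 : ℝ) ≤ d)]
  set θ : ℝ := (q - a') / 2 with hθ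
  have hθ0 : 0 < θ := by rw [hθ]; linarith
  have hθ1 : θ < 1 := by rw [hθ]; linarith
  obtain ⟨η, hη0, hη1, C₀, B₀, hC₀, hL⟩ := hL θ hθ0 hθ1
  obtain ⟨Ca, hCa, hA⟩ := hA
  refine ⟨θ, a', η, Cc, 7 * Ca * C₀ ^ 3, B₀, hθ0, hθ1, by rw [hθ]; linarith,
    by nlinarith [mul_pos ha'0 hθ0], hη0, hη1, hCc, (const_ineq hCa hC₀).1, ?_⟩
  intro R B K₀ Km a b aj r hn K N t hK₀ hKm hN hNB ι X p w hreg hball Xc hXc hcl
  obtain ⟨hR, hB₀, hB, hK₀B, hK₀S, hKmS, hS, hKa, ha1, ha2, hb1, hbB, haj, hab, haaj, hr0, hr,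
    hlog⟩ := hn
  set S := Ssc (d + 1) R with hSdef
  have hw := hreg.1
  have hB0 : 0 < B := by linarith
  have hN0 : 0 < N := lt_of_lt_of_le (by positivity) hN
  have hK1 : 1 ≤ K := by linarith
  have hK0 : 0 < K := by linarith
  have hKm0 : 0 < Km := by linarith
  have hS0 : 0 < S := lt_of_lt_of_le (by positivity) hS
  have ha0 : 0 < a := by linarith
  have haj0 : 0 < aj := by linarith
  obtain ⟨hKS, hKS', f1, f2, hrr, f3, f4, f5, f6, h2R, f7⟩ :=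
    num_facts hB hK1 hKm hKmS hKa ha1 hb1 haj hab haaj hr0 hr hR
  have hsq : 0 < a ^ 2 := by positivity
  have hr1 : 0 < S ^ 2 * B ^ 3 := by positivity
  obtain ⟨𝒞, h𝒞, hsep, hnet⟩ := exists_net Xc p (δ := K / 2) (by linarith)
  choose! π hπ1 hπ2 using hnet
  have hcard : Real.log (𝒞.card + 1) ≤ B := by
    refine le_trans (Real.log_le_log (by positivity) ?_) hlog
    have := card_le_of_sep_st 𝒞 p 0 (by linarith : 0 ≤ R) (by linarith : 0 < K / 2)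
      (fun c hc => (hcl c (h𝒞 hc)).2.1) hsep
    have h3 : (2 * R / (K / 2) + 1) ^ (d + 1) ≤ (4 * R + 1) ^ (d + 1) := by gcongr
    linarith
  obtain ⟨Λ, W, hΛ1, hΛ2, hW, hWavg, hen⟩ := hL R B K N a t b hR hB₀ (by linarith) hKS hS hN hNB
    (hKm.trans hKa) f1 f2 hb1 hbB ι X p w hreg 𝒞 hcard
    (fun c hc => (hcl c (h𝒞 hc)).1.1) hsep
    (fun c hc r h1 h2 => (hcl c (h𝒞 hc)).1.2.2 r (hK₀.trans h1) h2)
    (fun c hc => (hcl c (h𝒞 hc)).2.2)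
  have hρ : 0 < S ^ 2 := by positivity
  have hρa : S ^ 2 * B ^ 3 ≤ a ^ 2 / 2 := by linarith
  obtain ⟨Bad, E, hBad, hcov, hsparse, hgood⟩ := hA Λ W K C₀ (2 * B ^ 30 / S ^ 2)
    (S ^ 2 / B ^ 30 / (10 * K)) (S ^ 2 * B ^ 3) r (t - a ^ 2 / 2) (2 * a ^ 2) R (1 / B ^ 34)
    (1 / B ^ 3) aj (a * b) hK1 (by linarith) hΛ1 hΛ2 (by positivity) hW hr0 hrr
    f3 hr1 f4 (by linarith) (by positivity) (by positivity)
    (hKm.trans haj) (by positivity) f5 f6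
    ι Xc p (fun z hz => by
      obtain ⟨-, h1, h2, h3⟩ := hcl z hz
      refine ⟨?_, by linarith, by linarith⟩
      have := mem_closedBall_zero_iff.1 h1
      exact (norm_fst_le _).trans this)
  refine ⟨Bad, E, hBad, II.B.cov_mono hcov subset_rfl le_rfl ?_, hsparse, ?_⟩
  · have h1 : Real.sqrt (K * (S ^ 2 * B ^ 3) / (2 * a ^ 2)) ≤
        Real.sqrt (Km * (S ^ 2 * B ^ 3) / a ^ 2) := by
      apply Real.sqrt_le_sqrt
      gcongr
      linarith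
    have e : Ca * C₀ ^ 2 * Real.sqrt (K * (S ^ 2 * B ^ 3) / (2 * a ^ 2)) * R ^ d * (2 * a ^ 2) /
        ((1 / B ^ 34) ^ 2 * (1 / B ^ 3) * r ^ (d + 1)) = 2 * Ca * C₀ ^ 2 *
        Real.sqrt (K * (S ^ 2 * B ^ 3) / (2 * a ^ 2)) * B ^ 71 * R ^ d * a ^ 2 / r ^ (d + 1) := by
      field_simp
    rw [e]
    have h2 := (const_ineq hCa hC₀).2.1
    gcongr
  intro Y H φ₀ Ef hY hφ₀ hEf hΦ
  set G := B3 d \ Bad with hG
  have hGm : MeasurableSet G := measurableSet_B3.diff hBad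
  set D := Cc * min (n1 η N K₀ K) (n1 η N K₀ K ^ a') with hD
  have hn1 : 0 < n1 η N K₀ K := by
    have : 0 < K₀ := by linarith
    unfold n1; positivity
  have hD0 : 0 ≤ D := mul_nonneg hCc (le_min hn1.le (by positivity))
  have hΦ' : ∀ k : ι, ∃ Φ : Set (V d), ∀ z ∈ Y, π z = k → MeasurableSet Φ ∧
      volume Φ ≤ ENNReal.ofReal φ₀ ∧ Φ ⊆ closedBall 0 3 ∧
      ∫ β in {β : Ph d | ‖pos (p k).2 β - (p k).1‖ ≤ b * K ∧ β.2 ∉ Φ},
        ‖co K (p k).2 (loc a t G H) β‖ ^ 2 ≤ Ef := by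
    intro k
    by_cases h : ∃ z ∈ Y, π z = k
    · obtain ⟨z, hz, rfl⟩ := h
      obtain ⟨Φ, h1, h2, h3, h4⟩ := hΦ z hz
      exact ⟨Φ, fun _ _ _ => ⟨h1, h2, h3, h4 _ (h𝒞 (hπ1 z (hY hz)))
        (by linarith [hπ2 z (hY hz)])⟩⟩
    · exact ⟨∅, fun z hz hk => absurd ⟨z, hz, hk⟩ h⟩
  choose Φ hΦ' using hΦ'
  have hfd : ∀ c : ι, ∀ z ∈ Y.filter (fun z => π z = c), dist (p z) (p c) < K / 2 := by
    intro c z hz
    obtain ⟨h1, rfl⟩ := Finset.mem_filter.1 hz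
    exact hπ2 z (hY h1)
  have hc := memLp_indicator_co ha0 t hGm H
  have main := hen Y π D (hY.trans hXc) hD0
    (fun z hz => ⟨hπ1 z (hY hz), by linarith [hπ2 z (hY hz)]⟩)
    (fun c hc => by
      refine le_trans ?_ (hcl c (h𝒞 hc)).1.2.1
      unfold ms
      refine Finset.sum_le_sum_of_subset_of_nonneg (fun z hz => ?_)
        (fun z hz _ => hw z (Finset.mem_filter.1 hz).1)
      exact Finset.mem_filter.2 ⟨hXc (hY (Finset.mem_filter.1 hz).1),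
        mem_closedBall.2 (by linarith [hfd c z hz])⟩)
    (fun c _ H' => fibre_bound hCD hw (((Finset.filter_subset _ _).trans hY).trans hXc) hη0 hη1
      hN0 (by linarith) (by linarith) hK₀ hKS' hK₀S hball
      (fun z hz => (hcl z (hY (Finset.mem_filter.1 hz).1)).1)
      (fun z hz z' hz' => by
        have := dist_triangle_right (p z') (p z) (p c)
        linarith [hfd c z hz, hfd c z' hz']) H')
    (G.indicator (co a t H)) φ₀ Ef Φ hc hφ₀ hEf (fun z hz => hΦ' _ z hz rfl)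
  have hnorm : ∫ β in G, ‖co a t H β‖ ^ 2 ≤ ‖H‖ ^ 2 := by
    rw [← integral_co_sq ha0 t H]
    exact setIntegral_le_integral (Iso.integrable_co_sq ha0 t H)
      (.of_forall fun _ => by positivity)
  have hnorm' : ∫ β, ‖G.indicator (co a t H) β‖ ^ 2 ≤ ‖H‖ ^ 2 := by
    have := integral_indicator_weight hGm (fun _ => 1) (co a t H)
    simp only [one_mul] at this
    rw [this]; exact hnorm
  set xv : Ph d → ℝ := xray (vv X p w (S ^ 2 * B ^ 3)) (t - a ^ 2) (t + 2 * a ^ 2) with hxv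
  have hvv0 := vv_nonneg (p := p) hw (by positivity : 0 < S ^ 2 * B ^ 3)
  have hxv0 : ∀ β, 0 ≤ xv β := xray_nonneg hvv0 (by linarith)
  set κ : ℝ := a ^ 2 / (B * S ^ 2) with hκ
  have hκ0 : 0 ≤ κ := by positivity
  have hNq : N ^ q ≤ B := by
    rcases le_total N 1 with h | h
    · exact (Real.rpow_le_one hN0.le h (by positivity)).trans hB
    · exact le_trans (by simpa using Real.rpow_le_rpow_of_exponent_le h hq1) hNB
  have hpt : ∀ β ∈ G, N ^ q * lw Λ K W (t - a ^ 2 / 2) (t + 3 * a ^ 2 / 2) β ≤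
      7 * Ca * C₀ ^ 2 * (xv β + κ) := by
    intro β hβ
    have h1 := hgood β hβ.2 hβ.1
    rw [show t - a ^ 2 / 2 + 2 * a ^ 2 = t + 3 * a ^ 2 / 2 by ring] at h1
    have h2 : N ^ q * lw Λ K (fun ζ => bavg (W ζ) (S ^ 2 * B ^ 3)) (t - a ^ 2 / 2 - S ^ 2 * B ^ 3)
        (t + 3 * a ^ 2 / 2 + S ^ 2 * B ^ 3) β ≤ C₀ * (C₀ * (xv β + 3 * κ)) := by
      unfold lw
      rw [Finset.mul_sum]
      refine le_trans (Finset.sum_le_sum fun ζ hζ => ?_)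
        ((Finset.sum_mul ..).symm.le.trans (mul_le_mul_of_nonneg_right (hΛ2 β.2)
          (by have := hxv0 β; positivity)))
      rw [mul_left_comm]
      refine mul_le_mul_of_nonneg_left ?_ (Real.exp_pos _).le
      rw [← xray_const_mul]
      refine le_trans (xray_mono (W' := fun u => C₀ * (vv X p w (S ^ 2 * B ^ 3) u + 1 / (B * S ^ 2)))
        (s₁ := t - a ^ 2) (s₂ := t + 2 * a ^ 2)
        (continuous_const.mul (continuous_bavg (hW ζ hζ).1 _))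
        (continuous_const.mul ((continuous_vv _).add continuous_const))
        (fun u => by have := hvv0 u; positivity) (hWavg ζ hζ) (by linarith)
        (by linarith) (by linarith) β) (le_of_eq ?_)
      rw [xray_affine (continuous_vv _), hκ]; congr 2; field_simp; ring
    have h3 : N ^ q * (Ca * (1 / B ^ 34) * (2 * B ^ 30 / S ^ 2) * (2 * a ^ 2)) ≤ 4 * Ca * κ := by
      calc _ ≤ B * (Ca * (1 / B ^ 34) * (2 * B ^ 30 / S ^ 2) * (2 * a ^ 2)) := by gcongr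
        _ = 4 * Ca * κ / B ^ 2 := by rw [hκ]; field_simp; ring
        _ ≤ _ := div_le_self (by positivity) (one_le_pow₀ hB)
    have h5 := hxv0 β
    calc _ ≤ N ^ q * (Ca * lw Λ K (fun ζ => bavg (W ζ) (S ^ 2 * B ^ 3))
            (t - a ^ 2 / 2 - S ^ 2 * B ^ 3) (t + 3 * a ^ 2 / 2 + S ^ 2 * B ^ 3) β +
            Ca * (1 / B ^ 34) * (2 * B ^ 30 / S ^ 2) * (2 * a ^ 2)) := by gcongr
      _ ≤ Ca * (C₀ * (C₀ * (xv β + 3 * κ))) + 4 * Ca * κ := by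
          rw [mul_add, mul_left_comm]; gcongr
      _ ≤ _ := fin_ineq hCa hC₀ h5 hκ0
  obtain ⟨Mv, hMv⟩ : ∃ Mv, ∀ β, |xv β| ≤ Mv := by
    obtain ⟨Cd, -, hCd⟩ := exists_dens_const d
    have := ((hCd ι X p w hw).2 R B (S ^ 2 * B ^ 3) hR hB hreg f7).2
    exact ⟨_, fun β => by
      rw [abs_of_nonneg (hxv0 β)]
      exact xray_le this.1 (fun u => (this.2.1 u).2) (by linarith) β⟩
  have hi1 : Integrable fun β => xv β * ‖co a t H β‖ ^ 2 :=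
    integrable_weight (continuous_xray (continuous_vv _) _ _).measurable hMv (memLp_co ha0 t H)
  have hi2 := Iso.integrable_co_sq ha0 t H
  have hint : N ^ q * ∫ β, lw Λ K W (t - a ^ 2 / 2) (t + 3 * a ^ 2 / 2) β *
      ‖G.indicator (co a t H) β‖ ^ 2 ≤
      7 * Ca * C₀ ^ 2 * ((∫ β in B3 d, xv β * ‖co a t H β‖ ^ 2) + κ * ‖H‖ ^ 2) := by
    rw [integral_indicator_weight hGm, ← integral_const_mul]
    calc _ ≤ ∫ β in G, 7 * Ca * C₀ ^ 2 * (xv β * ‖co a t H β‖ ^ 2 + κ * ‖co a t H β‖ ^ 2) := by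
          refine setIntegral_mono_of_nonneg (fun β _ => ?_) (fun β hβ => ?_)
            ((hi1.add (hi2.const_mul κ)).const_mul _).integrableOn
          · have : 0 ≤ lw Λ K W (t - a ^ 2 / 2) (t + 3 * a ^ 2 / 2) β :=
              Finset.sum_nonneg fun ζ hζ => mul_nonneg (Real.exp_pos _).le
                (xray_nonneg (fun u => ((hW ζ hζ).2.1 u).1) (by linarith) β)
            positivity
          · rw [← mul_assoc, ← add_mul, ← mul_assoc]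
            exact mul_le_mul_of_nonneg_right (hpt β hβ) (by positivity)
      _ = 7 * Ca * C₀ ^ 2 * ((∫ β in G, xv β * ‖co a t H β‖ ^ 2) +
            κ * ∫ β in G, ‖co a t H β‖ ^ 2) := by
          rw [integral_const_mul, integral_add hi1.integrableOn (hi2.const_mul κ).integrableOn,
            integral_const_mul]
      _ ≤ _ := by
          gcongr
          · exact .of_forall fun β => by have := hxv0 β; positivity
          · exact hi1.integrableOn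
          · exact sdiff_subset
  have ecoef : D ^ (1 - θ) * N ^ θ * φ₀ ^ (θ / 2) + N ^ q / B ^ 3 =
      coef d θ a' η Cc B K₀ K N φ₀ * N ^ q := by
    unfold coef
    rw [← hD, ← hq, Real.rpow_sub hN0]
    have : 0 < N ^ q := by positivity
    field_simp
  have hcoef : 0 ≤ coef d θ a' η Cc B K₀ K N φ₀ := by unfold coef; positivity
  have hwY : 0 ≤ ∑ z ∈ Y, w z := Finset.sum_nonneg fun z hz => hw z (hXc (hY hz))
  have hCC := (const_ineq hCa hC₀).2.2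
  refine main.trans (add_le_add ?_ (by gcongr))
  rw [ecoef]
  calc _ = C₀ * coef d θ a' η Cc B K₀ K N φ₀ * (N ^ q * ∫ β, lw Λ K W (t - a ^ 2 / 2)
        (t + 3 * a ^ 2 / 2) β * ‖G.indicator (co a t H) β‖ ^ 2) := by ring
    _ ≤ C₀ * coef d θ a' η Cc B K₀ K N φ₀ *
        (7 * Ca * C₀ ^ 2 * ((∫ β in B3 d, xv β * ‖co a t H β‖ ^ 2) + κ * ‖H‖ ^ 2)) := by gcongr
    _ = _ := by ring

end Crest.Agent.N76.II.LP
end

-- ▼ part N76/II/LP/Num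

/-! # Row 76, Lemma P: choice of the levels and numerics (helper16). -/

set_option autoImplicit false

open MeasureTheory Set Metric
open scoped ENNReal

namespace Crest.Agent.N76.II.LP

open Crest.Agent.N76.Red (V)
open Crest.Agent.N76.G

/-- all relations between the chosen scales -/
structure Lv (d κ : ℕ) (B₀ R B : ℝ) (b M k₀ j i₀ k₁ k₂ : ℕ) : Prop where
  num : Num d B₀ R B (2 ^ k₀) (B ^ κ) ((b : ℝ) ^ i₀) b ((b : ℝ) ^ j) (2 ^ k₂)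
  hk₀ : B ^ 30 ≤ 2 ^ k₀
  hk₀' : (2 : ℝ) ^ k₀ ≤ 2 * B ^ 30
  hj : j ≤ i₀
  hi : i₀ < M
  u1 : B ^ 24 ≤ (b : ℝ) ^ j
  u2 : (b : ℝ) ^ (2 * j) ≤ Ssc (d + 1) R
  u3 : Ssc (d + 1) R ^ 2 * B ^ 23 ≤ (b : ℝ) ^ (2 * i₀)
  u4 : (b : ℝ) ^ i₀ ≤ Ssc (d + 1) R ^ 2
  u5 : (b : ℝ) ^ (2 * i₀) ≤ Ssc (d + 1) R ^ 2 * (b : ℝ) ^ j
  u6 : Ssc (d + 1) R ^ 2 ≤ 2 ^ k₁
  u7 : (2 : ℝ) ^ k₁ ≤ 2 * Ssc (d + 1) R ^ 2
  r1 : (2 : ℝ) ^ k₁ ≤ Real.sqrt R / B
  r2 : k₂ < k₁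
  r3 : Ssc (d + 1) R ≤ 2 ^ k₂
  r4 : Ssc (d + 1) R ^ 2 ≤ 2 ^ k₂ * (20 * B ^ (30 + κ))
  sq : Real.sqrt (B ^ κ * (Ssc (d + 1) R ^ 2 * B ^ 3) / ((b : ℝ) ^ i₀) ^ 2) ≤ 1 / B ^ (κ + 105)
  top : Ssc (d + 1) R ^ 2 ≤ (b : ℝ) ^ M
  lam : B ≤ (b : ℝ) ^ (2 * M) / (B * Ssc (d + 1) R ^ 2)
  B2 : B ^ 2 ≤ R
  ST : Ssc (d + 1) R ≤ Real.sqrt R

theorem exists_levels {d κ : ℕ} (hd : 1 ≤ d) {B₀ R B : ℝ} {b M : ℕ} (hR : 1 ≤ R) (hB₀ : B₀ ≤ B)
    (hB : 80 ≤ B) (hBd : 2 * ((d : ℝ) + 1) ≤ B) (hb : 2 ≤ b) (hbB : (b : ℝ) ^ 2 ≤ B)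
    (hS : B ^ (8 * κ + 492) ≤ Ssc (d + 1) R) (h1 : R / B ≤ (b : ℝ) ^ (2 * M))
    (h2 : (b : ℝ) ^ (2 * M) ≤ R) (hlog : Real.log ((4 * R + 1) ^ (d + 1) + 1) ≤ B) :
    ∃ k₀ j i₀ k₁ k₂ : ℕ, Lv d κ B₀ R B b M k₀ j i₀ k₁ k₂ := by
  have hST := Ssc_pow (d := d) hR
  have hS1 := one_le_Ssc hR (d + 1)
  set S := Ssc (d + 1) R with hSdef
  have hB1 : 1 ≤ B := by linarith
  have hB0 : 0 < B := by linarith
  have hS0 : 0 < S := by linarith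
  have hb2 : (2 : ℝ) ≤ b := by exact_mod_cast hb
  have hb1 : (1 : ℝ) < b := by linarith
  have hbB' : (b : ℝ) ≤ B := by nlinarith
  have hp : ∀ {m n : ℕ}, m ≤ n → B ^ m ≤ B ^ n := fun h => pow_le_pow_right₀ hB1 h
  have hpS : ∀ {m : ℕ}, m ≤ 8 * κ + 492 → B ^ m ≤ S := fun h => (hp h).trans hS
  have hT : S ^ 3 ≤ Real.sqrt R := hST ▸ pow_le_pow_right₀ hS1 (by omega)
  have hTR : Real.sqrt R ≤ R := by
    rw [Real.sqrt_le_left (by linarith)]; nlinarith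
  have hR6 : S ^ 6 ≤ R := by
    calc S ^ 6 = (S ^ 3) ^ 2 := by ring
      _ ≤ Real.sqrt R ^ 2 := by gcongr
      _ = R := Real.sq_sqrt (by linarith)
  have hSS : ∀ {m n : ℕ}, m ≤ n → S ^ m ≤ S ^ n := fun h => pow_le_pow_right₀ hS1 h
  obtain ⟨k₀, hk₀, hk₀'⟩ := exists_pow_two_ge (one_le_pow₀ hB1 : 1 ≤ B ^ 30)
  obtain ⟨k₁, hk₁, hk₁'⟩ := exists_pow_two_ge (one_le_pow₀ hS1 : 1 ≤ S ^ 2)
  obtain ⟨j', hj1, hj2⟩ := exists_nat_pow_near (one_le_pow₀ hB1 : 1 ≤ B ^ (4 * κ + 245)) hb1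
  obtain ⟨i', hi1, hi2⟩ := exists_nat_pow_near
    (one_le_mul_of_one_le_of_one_le (one_le_pow₀ hS1) (one_le_pow₀ hB1) :
      1 ≤ S ^ 2 * B ^ (3 * κ + 213)) (one_lt_pow₀ hb1 two_ne_zero : 1 < (b : ℝ) ^ 2)
  have h20 : 20 * B ^ (30 + κ) ≤ S := by
    calc 20 * B ^ (30 + κ) ≤ B * B ^ (30 + κ) := by gcongr; linarith
      _ = B ^ (31 + κ) := by ring
      _ ≤ S := hpS (by omega)
  have hBp : 0 < B ^ (30 + κ) := by positivity
  obtain ⟨k₂, hk₂, hk₂'⟩ := exists_nat_pow_near (x := S ^ 2 / (10 * B ^ (30 + κ)))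
    (by rw [one_le_div (by positivity)]; nlinarith) one_lt_two
  rw [le_div_iff₀ (by positivity)] at hk₂
  rw [div_lt_iff₀ (by positivity)] at hk₂'
  have aj1 : (b : ℝ) ^ (j' + 1) ≤ B ^ (4 * κ + 246) := by
    rw [pow_succ, pow_succ B]; gcongr
  have aj2 : (b : ℝ) ^ (2 * (j' + 1)) ≤ S := by
    rw [mul_comm, pow_mul]
    calc _ ≤ (B ^ (4 * κ + 246)) ^ 2 := by gcongr
      _ = B ^ (8 * κ + 492) := by ring
      _ ≤ S := hS
  have a1 : S ^ 2 * B ^ (3 * κ + 213) ≤ (b : ℝ) ^ (2 * (i' + 1)) := by rw [pow_mul]; exact hi2.le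
  have a2 : (b : ℝ) ^ (2 * (i' + 1)) ≤ S ^ 2 * B ^ (3 * κ + 214) := by
    rw [pow_mul, pow_succ, pow_succ B, ← mul_assoc]; gcongr
  have asq : ((b : ℝ) ^ (i' + 1)) ^ 2 = (b : ℝ) ^ (2 * (i' + 1)) := by rw [← pow_mul, mul_comm]
  have a3 : (b : ℝ) ^ (i' + 1) ≤ S * B ^ (2 * κ + 107) := by
    refine (pow_le_pow_iff_left₀ (by positivity) (by positivity) two_ne_zero).1 ?_
    rw [asq]
    calc _ ≤ S ^ 2 * B ^ (3 * κ + 214) := a2
      _ ≤ S ^ 2 * B ^ (4 * κ + 214) := by gcongr; omega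
      _ = _ := by ring
  have hge : ∀ {m : ℕ}, m ≤ 3 * κ + 213 → S ^ 2 * B ^ m ≤ (b : ℝ) ^ (2 * (i' + 1)) := fun h =>
    le_trans (by gcongr) a1
  have hSa : S ^ 2 ≤ (b : ℝ) ^ (2 * (i' + 1)) := by simpa using hge (Nat.zero_le _)
  have hiM : i' + 1 < M := by
    have : (b : ℝ) ^ (2 * (i' + 1)) < (b : ℝ) ^ (2 * M) := by
      refine lt_of_lt_of_le ?_ h1
      rw [lt_div_iff₀ hB0]
      calc _ ≤ S ^ 2 * B ^ (3 * κ + 214) * B := by gcongr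
        _ < S ^ 2 * B ^ (3 * κ + 214) * B * B := lt_mul_of_one_lt_right (by positivity) (by linarith)
        _ = S ^ 2 * B ^ (3 * κ + 216) := by ring
        _ ≤ S ^ 2 * S := by gcongr; exact hpS (by omega)
        _ ≤ R := by linarith [hSS (show 3 ≤ 6 by norm_num), pow_succ S 2]
    have := (pow_lt_pow_iff_right₀ hb1).1 this
    omega
  have hBS : B ≤ S := by simpa using hpS (m := 1) (by omega)
  refine ⟨k₀, j' + 1, i' + 1, k₁, k₂, ⟨hR, hB₀, hB1, ?_, ?_, ?_, hpS (by omega), ?_, ?_, ?_, hb1.le,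
    hbB', ?_, ?_, ?_, by positivity, ?_, hlog⟩, hk₀, hk₀', ?_, hiM, ?_, aj2, hge (by omega), ?_, ?_,
    hk₁, hk₁', ?_, ?_, ?_, ?_, ?_, ?_, ?_, ?_, ?_⟩
  · have := hp (show 2 ≤ 30 by norm_num); nlinarith
  · calc ((d : ℝ) + 1) * 2 ^ k₀ ≤ (d + 1) * (2 * B ^ 30) := by gcongr
      _ = 2 * (d + 1) * B ^ 30 := by ring
      _ ≤ B * B ^ 30 := by gcongr
      _ = B ^ 31 := by ring
      _ ≤ S := hpS (by omega)
  · calc 8 * (B ^ κ) ^ 2 ≤ B * (B ^ κ) ^ 2 := by gcongr; linarith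
      _ = B ^ (2 * κ + 1) := by ring
      _ ≤ S := hpS (by omega)
  · refine (pow_le_pow_iff_left₀ (by positivity) (by positivity) two_ne_zero).1 ?_
    rw [asq]
    refine le_trans ?_ hSa
    gcongr; exact hpS (by omega)
  · rw [asq]
    refine le_trans ?_ (hge (m := 4) (by omega))
    calc 2 * (S ^ 2 * B ^ 3) ≤ B * (S ^ 2 * B ^ 3) := by gcongr; linarith
      _ = _ := by ring
  · rw [asq]
    exact le_trans (pow_le_pow_right₀ hb1.le (by omega)) h2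
  · exact (hp (by omega)).trans hj2.le
  · calc (b : ℝ) ^ (i' + 1) * b * (40 * B ^ 30 * B ^ κ)
        ≤ S * B ^ (2 * κ + 107) * B * (B * B ^ 30 * B ^ κ) := by gcongr; linarith
      _ = S * B ^ (3 * κ + 139) := by ring
      _ ≤ S * S := by gcongr; exact hpS (by omega)
      _ = _ := by ring
  · rw [asq]
    calc _ ≤ S ^ 2 * B ^ (3 * κ + 214) * (B * B ^ 30 * B ^ κ) := by gcongr
      _ = S ^ 2 * B ^ (4 * κ + 245) := by ring
      _ ≤ _ := by gcongr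
  · calc _ = (2 : ℝ) ^ k₂ * (10 * B ^ (30 + κ)) := by ring
      _ ≤ _ := hk₂
  · have : (b : ℝ) ^ (2 * (j' + 1)) ≤ (b : ℝ) ^ (2 * (i' + 1)) :=
      aj2.trans (le_trans (by simpa using hSS (show 1 ≤ 2 by norm_num)) hSa)
    have := (pow_le_pow_iff_right₀ hb1).1 this
    omega
  · exact (hp (by omega)).trans hj2.le
  · calc _ ≤ S * B ^ (2 * κ + 107) := a3
      _ ≤ S * S := by gcongr; exact hpS (by omega)
      _ = _ := by ring
  · refine a2.trans ?_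
    gcongr
    exact (hp (by omega)).trans hj2.le
  · rw [le_div_iff₀ hB0]
    calc (2 : ℝ) ^ k₁ * B ≤ 2 * S ^ 2 * B := by gcongr
      _ ≤ B * S ^ 2 * B := by gcongr; linarith
      _ = S ^ 2 * B ^ 2 := by ring
      _ ≤ S ^ 2 * S := by gcongr; exact hpS (by omega)
      _ ≤ _ := by rw [← pow_succ]; exact hT
  · have : (2 : ℝ) ^ k₂ < 2 ^ k₁ := by
      refine lt_of_lt_of_le ?_ (hk₂.trans hk₁)
      exact lt_mul_of_one_lt_right (by positivity) (by linarith [one_le_pow₀ (n := 30 + κ) hB1])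
    exact (pow_lt_pow_iff_right₀ one_lt_two).1 this
  · have h3 : S * S ≤ 2 ^ k₂ * S := by
      calc S * S = S ^ 2 := by ring
        _ ≤ 2 ^ (k₂ + 1) * (10 * B ^ (30 + κ)) := hk₂'.le
        _ = 2 ^ k₂ * (20 * B ^ (30 + κ)) := by ring
        _ ≤ _ := by gcongr
    exact le_of_mul_le_mul_right h3 hS0
  · calc S ^ 2 ≤ 2 ^ (k₂ + 1) * (10 * B ^ (30 + κ)) := hk₂'.le
      _ = _ := by ring
  · rw [asq, Real.sqrt_le_left (by positivity), div_le_iff₀ (by positivity)]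
    calc B ^ κ * (S ^ 2 * B ^ 3) = (1 / B ^ (κ + 105)) ^ 2 * (S ^ 2 * B ^ (3 * κ + 213)) := by
          field_simp; ring
      _ ≤ _ := by gcongr
  · refine (pow_le_pow_iff_left₀ (by positivity) (by positivity) two_ne_zero).1 ?_
    rw [← pow_mul (b : ℝ), mul_comm M]
    refine le_trans ?_ h1
    rw [le_div_iff₀ hB0]
    calc (S ^ 2) ^ 2 * B ≤ (S ^ 2) ^ 2 * S := by gcongr
      _ = S ^ 5 := by ring
      _ ≤ R := (hSS (by norm_num)).trans hR6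
  · rw [le_div_iff₀ (by positivity)]
    refine le_trans ?_ h1
    rw [le_div_iff₀ hB0]
    calc B * (B * S ^ 2) * B ≤ S * (S * S ^ 2) * S := by gcongr
      _ = S ^ 5 := by ring
      _ ≤ R := (hSS (by norm_num)).trans hR6
  · exact (hpS (by omega)).trans (le_trans (by simpa using hSS (show 1 ≤ 6 by norm_num)) hR6)
  · exact le_trans (by simpa using hSS (show 1 ≤ 3 by norm_num)) hT

theorem prd_le_mid {d : ℕ} {R r : ℝ} (hR : 1 ≤ R) (h1 : Ssc (d + 1) R ≤ r)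
    (h2 : r ≤ Ssc (d + 1) R ^ 2) : Real.sqrt R * prd d R r ≤ r ^ d * Ssc (d + 1) R ^ 2 := by
  have hST := Ssc_pow (d := d) hR
  have hS1 := one_le_Ssc hR (d + 1)
  unfold prd
  set S := Ssc (d + 1) R
  have hS0 : 0 < S := by linarith
  have hr0 : 0 < r := by linarith
  have e : Real.sqrt R * (r / S) ^ d = r ^ d * S ^ 2 := by
    rw [← hST, div_pow]; field_simp; ring
  have hT : 0 < Real.sqrt R := hST ▸ by positivity
  rw [mul_max_of_nonneg _ _ hT.le, mul_max_of_nonneg _ _ hT.le, e]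
  refine max_le ?_ (max_le le_rfl ?_)
  · rw [← e]; gcongr; exact one_le_pow₀ ((one_le_div hS0).2 h1)
  · rw [mul_div_cancel₀ _ hT.ne', pow_succ]; gcongr

theorem prd_top_le {d : ℕ} {R : ℝ} (hR : 1 ≤ R) : prd d R R ≤ R ^ (d + 1) := by
  have hS1 := one_le_Ssc hR (d + 1)
  unfold prd
  refine max_le (one_le_pow₀ hR) (max_le ?_ ?_)
  · calc (R / Ssc (d + 1) R) ^ d ≤ R ^ d := by gcongr; exact div_le_self (by linarith) hS1
      _ ≤ _ := pow_le_pow_right₀ hR (by omega)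
  · exact div_le_self (by positivity) (Real.one_le_sqrt.2 hR)

theorem sg_num {d : ℕ} {R B x : ℝ} (hR : 1 ≤ R) (hB : 0 ≤ B) (hx : 0 ≤ x) :
    (x * (B * (x ^ (d + 1) / Real.sqrt R))) ^ (2 / ((d : ℝ) + 2)) =
      B ^ (2 / ((d : ℝ) + 2)) * (x ^ 2 / Ssc (d + 1) R ^ 2) := by
  have hS1 := one_le_Ssc hR (d + 1)
  rw [← Ssc_pow (d := d) hR]
  set S := Ssc (d + 1) R
  have e : x * (B * (x ^ (d + 1) / S ^ (d + 2))) = B * (x / S) ^ (d + 2) := by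
    rw [div_pow]; ring
  rw [e, Real.mul_rpow hB (by positivity), ← div_pow, ← Real.rpow_natCast (x / S) (d + 2),
    ← Real.rpow_mul (by positivity), ← Real.rpow_natCast (x / S) 2]
  congr 2
  push_cast
  field_simp

theorem small_num {d : ℕ} (hd : 1 ≤ d) {B : ℝ} (hB : 1 ≤ B) :
    B ^ (1 / 4 : ℝ) * (1 / B ^ 6) ^ ((d : ℝ) / (d + 2)) * B ^ (2 / ((d : ℝ) + 2)) ≤ 1 / B := by
  have hB0 : 0 < B := by linarith
  have hd' : (1 : ℝ) ≤ d := by exact_mod_cast hd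
  rw [one_div (B ^ 6), ← Real.rpow_natCast B 6, ← Real.rpow_neg hB0.le, ← Real.rpow_mul hB0.le,
    ← Real.rpow_add hB0, ← Real.rpow_add hB0, one_div B, ← Real.rpow_neg_one]
  apply Real.rpow_le_rpow_of_exponent_le hB
  have : (0 : ℝ) < d + 2 := by linarith
  have e : (1 / 4 : ℝ) + -((6 : ℕ) : ℝ) * ((d : ℝ) / (d + 2)) + 2 / ((d : ℝ) + 2) =
      -1 - (19 * d - 18) / (4 * (d + 2)) := by push_cast; field_simp; ring
  rw [e]
  have : 0 ≤ (19 * (d : ℝ) - 18) / (4 * (d + 2)) := div_nonneg (by linarith) (by positivity)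
  linarith

theorem bad_num {d : ℕ} {B : ℝ} (hB : 1 ≤ B) :
    Real.sqrt B * (B ^ (1 / 4 : ℝ) * (1 / B ^ 3) * B ^ ((d : ℝ) / (d + 2)) *
      B ^ (2 / ((d : ℝ) + 2))) ≤ 1 / B := by
  have hB0 : 0 < B := by linarith
  have e : B ^ ((d : ℝ) / (d + 2)) * B ^ (2 / ((d : ℝ) + 2)) = B := by
    rw [← Real.rpow_add hB0, ← add_div, div_self (by positivity), Real.rpow_one]
  have h1 : Real.sqrt B * B ^ (1 / 4 : ℝ) ≤ B := by
    rw [Real.sqrt_eq_rpow, ← Real.rpow_add hB0]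
    simpa using Real.rpow_le_rpow_of_exponent_le hB (by norm_num : (1 / 2 + 1 / 4 : ℝ) ≤ 1)
  calc _ = (Real.sqrt B * B ^ (1 / 4 : ℝ)) * (1 / B ^ 3) *
        (B ^ ((d : ℝ) / (d + 2)) * B ^ (2 / ((d : ℝ) + 2))) := by ring
    _ ≤ B * (1 / B ^ 3) * B := by rw [e]; gcongr
    _ = 1 / B := by field_simp

theorem exists_exp_small (n : ℕ) : ∃ b₁ : ℝ, ∀ b : ℝ, b₁ ≤ b → b ^ n * Real.exp (-b) ≤ 1 := by
  have := (Real.tendsto_pow_mul_exp_neg_atTop_nhds_zero n).eventually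
    (eventually_le_nhds one_pos)
  exact Filter.eventually_atTop.1 this

theorem log_small {d M : ℕ} {R b : ℝ} (hR : 1 ≤ R) (hb : ((d : ℝ) + 1) * (4 * M + 6) ≤ b)
    (h : R ≤ b ^ (4 * M)) : Real.log ((4 * R + 1) ^ (d + 1) + 1) ≤ b ^ 2 := by
  have hd : (1 : ℝ) ≤ d + 1 := by linarith [(Nat.cast_nonneg d : (0 : ℝ) ≤ d)]
  have hM : (0 : ℝ) ≤ M := Nat.cast_nonneg M
  have hb1 : 1 ≤ b := by nlinarith
  have h1 : (4 * R + 1) ^ (d + 1) + 1 ≤ (6 * R) ^ (d + 1) := by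
    calc (4 * R + 1) ^ (d + 1) + 1 ≤ (5 * R) ^ (d + 1) + R ^ (d + 1) := by
          gcongr
          · linarith
          · exact one_le_pow₀ hR
      _ ≤ (5 * R + R) ^ (d + 1) := pow_add_pow_le (by positivity) (by positivity) (by omega)
      _ = _ := by ring_nf
  have h2 : Real.log R ≤ 4 * M * b := by
    calc Real.log R ≤ Real.log (b ^ (4 * M)) := Real.log_le_log (by linarith) h
      _ = 4 * M * Real.log b := by rw [Real.log_pow]; push_cast; ring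
      _ ≤ _ := by gcongr; linarith [Real.log_le_sub_one_of_pos (by linarith : 0 < b)]
  have h3 : Real.log 6 ≤ 6 * b := by linarith [Real.log_le_sub_one_of_pos (by norm_num : (0 : ℝ) < 6)]
  calc _ ≤ Real.log ((6 * R) ^ (d + 1)) := Real.log_le_log (by positivity) h1
    _ = (d + 1) * (Real.log 6 + Real.log R) := by
        rw [Real.log_pow, Real.log_mul (by norm_num) (by linarith)]; push_cast; ring
    _ ≤ (d + 1) * (6 * b + 4 * M * b) := by gcongr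
    _ = (d + 1) * (4 * M + 6) * b := by ring
    _ ≤ b * b := by gcongr
    _ = _ := by ring

end Crest.Agent.N76.II.LP
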