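import Crest.Agent.N76.II.Dens
import Crest.Agent.N76.II.LP.Num

-- ▼ part N76/II/CH
section

/-! # Row 76 (S0101): a tower does not move lines (`CH`, helper28). -/

set_option autoImplicit false

open MeasureTheory Set Metric
open scoped ENNReal RealInnerProductSpace

namespace Crest.Agent.N76.II

open Crest.Agent.N76.Red (V ph)
open Crest.Agent.N76.G

variable {d : ℕ}

/-- Schur test for the far kernel -/
theorem lintegral_far_sq_le {a a' : ℝ} (ha : 0 < a) (ha' : 0 < a') (t t' s : ℝ) {c : Ph d → ℂ}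
    (hc : MemLp c 2 volume) :
    ∫⁻ β, (∫⁻ β', farK a t a' t' s (β - β') * ‖c β'‖ₑ) ^ 2 ≤
      ENNReal.ofReal (16 ^ d * Real.exp (-Real.pi * s) / pre d a t a' t' ^ 2 * ∫ β', ‖c β'‖ ^ 2) := by
  have hp := pre_pos (d := d) ha ha' t t'
  refine (lintegral_conv_sq_le (measurable_farK a t a' t' s) hc.1.enorm).trans_eq ?_
  unfold farK
  rw [lintegral_exp_Qf ha ha' t t' one_half_pos (by positivity), lintegral_enorm_sq_eq hc,
    ← ENNReal.ofReal_pow (by positivity), ← ENNReal.ofReal_mul (by positivity)]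
  congr 1
  have e1 : Real.exp (-Real.pi * s) = Real.exp (-Real.pi * s / 2) ^ 2 := by
    rw [← Real.exp_nat_mul]; congr 1; push_cast; ring
  have e2 : (16 : ℝ) ^ d = ((2 / (1 / 2)) ^ d) ^ 2 := by
    rw [← pow_mul, mul_comm, pow_mul]; norm_num
  rw [e1, e2]; field_simp

theorem lintegral_indicator_enorm_sq {c : Ph d → ℂ} (hc : MemLp c 2 volume) {F : Set (Ph d)}
    (hF : MeasurableSet F) :
    ∫⁻ β, F.indicator 1 β * (1 * ‖c β‖ₑ ^ 2) = ENNReal.ofReal (∫ β in F, ‖c β‖ ^ 2) := by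
  rw [← lintegral_enorm_sq_eq (hc.restrict F), ← lintegral_indicator hF]
  refine lintegral_congr fun β => ?_
  by_cases h : β ∈ F <;> simp [h]

/-- transfer between two sets of lines -/
theorem transfer_set {a a' : ℝ} (ha : 0 < a) (ha' : 0 < a') (t t' : ℝ) {c : Ph d → ℂ}
    (hc : MemLp c 2 volume) {F F' : Set (Ph d)} (hF : MeasurableSet F) (hF' : MeasurableSet F')
    {s : ℝ} (hs : ∀ β ∈ F, ∀ β' ∉ F', s ≤ Qf a t a' t' (β - β')) :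
    ∫ β in F, ‖co a t (syn a' t' c) β‖ ^ 2 ≤ 2 * (∫ β in F', ‖c β‖ ^ 2) +
      2 * (16 ^ d * Real.exp (-Real.pi * s) / pre d a t a' t' ^ 2 * ∫ β', ‖c β'‖ ^ 2) := by
  have hp := pre_pos (d := d) ha ha' t t'
  have h := transfer_local ha ha' t t' hc (B := F) hF' (w := fun _ => 1) (w' := fun _ => 1)
    (Wm := 1) (fun _ => le_rfl) (fun _ _ _ _ => le_rfl) hs
  rw [lintegral_indicator_enorm_sq (memLp_co ha t _) hF, lintegral_indicator_enorm_sq hc hF'] at h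
  have h2 : ∫⁻ β, F.indicator 1 β *
      (2 * 1 * (∫⁻ β', farK a t a' t' s (β - β') * ‖c β'‖ₑ) ^ 2) ≤ 2 * ENNReal.ofReal
      (16 ^ d * Real.exp (-Real.pi * s) / pre d a t a' t' ^ 2 * ∫ β', ‖c β'‖ ^ 2) := by
    refine le_trans ?_ (mul_le_mul' le_rfl (lintegral_far_sq_le ha ha' t t' s hc))
    rw [← lintegral_const_mul' _ _ ENNReal.ofNat_ne_top]
    refine lintegral_mono fun β => ?_
    by_cases h : β ∈ F <;> simp [h]
  have i1 : 0 ≤ ∫ β in F', ‖c β‖ ^ 2 := integral_nonneg fun β => by positivity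
  have i2 : 0 ≤ ∫ β', ‖c β'‖ ^ 2 := integral_nonneg fun β => by positivity
  have e : ∀ x : ℝ, 2 * ENNReal.ofReal x = ENNReal.ofReal (2 * x) := fun x => by
    rw [ENNReal.ofReal_mul zero_le_two, ENNReal.ofReal_ofNat]
  have h3 := h.trans (add_le_add le_rfl h2)
  rw [e, e, ← ENNReal.ofReal_add (by positivity) (by positivity)] at h3
  exact (ENNReal.ofReal_le_ofReal_iff (by positivity)).1 h3

theorem norm_pos_le (t t' : ℝ) (Δ : Ph d) : ‖pos t Δ‖ ≤ ‖pos t' Δ‖ + 2 * |t' - t| * ‖Δ.2‖ := by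
  have : pos t Δ = pos t' Δ + (2 * (t' - t)) • Δ.2 := by
    simp only [pos, mul_sub, sub_smul]; abel
  rw [this]
  refine (norm_add_le _ _).trans_eq ?_
  rw [norm_smul, Real.norm_eq_abs, abs_mul, abs_two]

/-- one step of the chain -/
theorem ch_step {R b a a' t t' t'' : ℝ} (hR : 1 ≤ R) (hb : 1 ≤ b) (ha : 1 ≤ a) (haa : a ≤ a')
    (ha' : a' ≤ Real.sqrt R) (ht : |t' - t| ≤ a ^ 2) (ht' : |t' - t''| ≤ 2 * a' ^ 2)
    {F F' : Set (Ph d)} (hF : MeasurableSet F) (hF' : MeasurableSet F')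
    (hfar : ∀ β ∈ F, ∀ β' ∉ F',
      15 * b * Real.sqrt R ≤ ‖pos t (β - β')‖ ∨ 15 * b / a ≤ ‖β.2 - β'.2‖)
    {c : Ph d → ℂ} (hc : MemLp c 2 volume) :
    ∫ β in F, ‖co a t' (syn a' t'' c) β‖ ^ 2 ≤ 2 * (∫ β in F', ‖c β‖ ^ 2) +
      2 * 80 ^ d * R ^ d * Real.exp (-b) * ∫ β', ‖c β'‖ ^ 2 := by
  have ha0 : 0 < a := by linarith
  have ha0' : 0 < a' := by linarith
  have hp := pre_pos (d := d) ha0 ha0' t' t''
  refine (transfer_set ha0 ha0' t' t'' hc hF hF' (s := b) fun β hβ β' hβ' => ?_).trans ?_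
  · refine le_trans ?_ (Qf_ge_two ha0 haa ht' _)
    by_contra hcon
    push Not at hcon
    have n1 : 0 ≤ ‖pos t' (β - β')‖ ^ 2 / (20 * a' ^ 2) := by positivity
    have n2 : 0 ≤ a ^ 2 * ‖(β - β').2‖ ^ 2 / 20 := by positivity
    have hb2 : b ≤ b ^ 2 := by nlinarith
    have h1 : ‖pos t' (β - β')‖ < 5 * b * a' := by
      refine lt_of_pow_lt_pow_left₀ 2 (by positivity) ?_
      have : ‖pos t' (β - β')‖ ^ 2 / (20 * a' ^ 2) < b ^ 2 := by linarith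
      rw [div_lt_iff₀ (by positivity)] at this
      nlinarith [sq_nonneg (b * a')]
    have h2 : a * ‖(β - β').2‖ < 5 * b := by
      refine lt_of_pow_lt_pow_left₀ 2 (by positivity) ?_
      rw [mul_pow]
      nlinarith
    rcases hfar β hβ β' hβ' with h | h
    · have h3 := norm_pos_le t t' (β - β')
      have h4 : |t' - t| * ‖(β - β').2‖ ≤ a * (a * ‖(β - β').2‖) := by
        rw [← mul_assoc, ← sq]; gcongr
      have h5 : a * (a * ‖(β - β').2‖) ≤ Real.sqrt R * (5 * b) :=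
        mul_le_mul (haa.trans ha') h2.le (by positivity) (by positivity)
      have h6 : 5 * b * a' ≤ 5 * b * Real.sqrt R := by gcongr
      linarith
    · rw [div_le_iff₀ ha0, ← Prod.snd_sub] at h
      linarith
  · have i2 : 0 ≤ ∫ β', ‖c β'‖ ^ 2 := integral_nonneg fun β => by positivity
    have h1 : Real.exp (-Real.pi * b) ≤ Real.exp (-b) :=
      Real.exp_le_exp.2 (by nlinarith [Real.pi_gt_three])
    have h2 : ((5 * R) ^ d)⁻¹ ≤ pre d a t' a' t'' ^ 2 := by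
      refine le_trans ?_ (pre_sq_ge ha0 haa ht')
      have h3 : a' ^ 2 ≤ R := by
        rw [← Real.sq_sqrt (by linarith : 0 ≤ R)]; gcongr
      have h4 : (5 * R)⁻¹ ≤ a ^ 2 / (5 * a' ^ 2) := by
        rw [← one_div]
        exact div_le_div₀ (by positivity) (one_le_pow₀ ha) (by positivity) (by linarith)
      rw [← inv_pow, ← Real.rpow_natCast]
      refine le_trans ?_ (Real.rpow_le_rpow (by positivity) h4 (by positivity))
      exact Real.rpow_le_rpow_of_exponent_ge (by positivity) (inv_le_one_of_one_le₀ (by linarith))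
        (by linarith [(Nat.cast_nonneg d : (0 : ℝ) ≤ d)])
    have h5 : 16 ^ d * Real.exp (-Real.pi * b) / pre d a t' a' t'' ^ 2 ≤
        80 ^ d * R ^ d * Real.exp (-b) := by
      calc _ ≤ 16 ^ d * Real.exp (-b) / ((5 * R) ^ d)⁻¹ := by gcongr
        _ = _ := by
          rw [div_inv_eq_mul, mul_pow, show (80 : ℝ) = 16 * 5 by norm_num, mul_pow]; ring
    nlinarith [mul_le_mul_of_nonneg_right h5 i2]

theorem abs_wt_sub_le {b : ℕ} (hb : 1 ≤ b) (j : ℕ) (t : ℝ) :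
    |wt b j t - t| ≤ ((b : ℝ) ^ j) ^ 2 := by
  have hL : (0 : ℝ) < (b : ℝ) ^ (2 * j) := by positivity
  have h1 := Int.floor_le (t / (b : ℝ) ^ (2 * j))
  have h2 := Int.lt_floor_add_one (t / (b : ℝ) ^ (2 * j))
  rw [le_div_iff₀ hL] at h1
  rw [div_lt_iff₀ hL] at h2
  rw [← pow_mul, mul_comm j 2, wt, win, abs_le]
  constructor <;> linarith

theorem integral_indicator_co_sq_le {a : ℝ} (ha : 0 < a) (t : ℝ) (h : L2 d) {A : Set (Ph d)}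
    (hA : MeasurableSet A) (F : Set (Ph d)) :
    ∫ β in F, ‖A.indicator (co a t h) β‖ ^ 2 ≤ ∫ β in F, ‖co a t h β‖ ^ 2 :=
  integral_mono (((memLp_co ha t h).indicator hA).restrict F |>.integrable_norm_pow two_ne_zero)
    ((memLp_co ha t h).restrict F |>.integrable_norm_pow two_ne_zero) fun β => by
      dsimp only
      gcongr
      exact norm_indicator_le_norm_self _ _

theorem ch_aux (d m : ℕ) : ∃ C : ℝ, 1 ≤ C ∧ ∀ (M : ℕ) (R : ℝ) (b i : ℕ), 1 ≤ R → 2 ≤ b →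
    (b : ℝ) ^ (2 * M) ≤ R → i + m = M + 1 →
    ∀ (A : ℕ → ℤ → Set (Ph d)), (∀ l k, MeasurableSet (A l k)) →
    ∀ (a t t' ρ₁ ρ₂ : ℝ), 1 ≤ a → a ≤ (b : ℝ) ^ i → a ≤ Real.sqrt R → |t| ≤ R → |t' - t| ≤ a ^ 2 →
    C * b * Real.sqrt R ≤ ρ₁ → C * b / a ≤ ρ₂ →
    ∀ (𝓡 F : Set (Ph d)), MeasurableSet 𝓡 → MeasurableSet F →
    (∀ β ∈ F, ∀ β' ∈ 𝓡, ρ₁ ≤ ‖pos t (β - β')‖ ∨ ρ₂ ≤ ‖β.2 - β'.2‖) →
    ∀ g : L2 d, ∫ β in F, ‖co a t' (tower b A i M (loc (Real.sqrt R) 0 𝓡 g) t) β‖ ^ 2 ≤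
      C * R ^ d * Real.exp (-(b : ℝ)) * ‖g‖ ^ 2 := by
  induction m with
  | zero =>
    refine ⟨15 + 2 * 80 ^ d, by linarith [show (0 : ℝ) ≤ 80 ^ d by positivity], ?_⟩
    intro M R b i hR hb hbR him A hA a t t' ρ₁ ρ₂ ha hab haR ht ht' hρ₁ hρ₂ 𝓡 F h𝓡 hF hfar g
    obtain rfl : i = M + 1 := him
    have hb1 : (1 : ℝ) ≤ b := by exact_mod_cast (by omega : 1 ≤ b)
    have hT : 0 < Real.sqrt R := by positivity
    have hsq : Real.sqrt R ^ 2 = R := Real.sq_sqrt (by linarith)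
    have h80 : (0 : ℝ) ≤ 80 ^ d := by positivity
    rw [tower_top, loc]
    refine (ch_step hR hb1 ha haR le_rfl ht' ?_ hF h𝓡.compl (fun β hβ β' hβ' => ?_)
      ((memLp_co hT 0 g).indicator h𝓡)).trans ?_
    · have h1 : a ^ 2 ≤ Real.sqrt R ^ 2 := by gcongr
      have h2 := abs_add_le (t' - t) t
      rw [sub_add_cancel] at h2
      rw [sub_zero]; linarith
    · refine (hfar β hβ β' (not_not.1 hβ')).imp (le_trans (le_trans ?_ hρ₁))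
        (le_trans (le_trans ?_ hρ₂)) <;> gcongr <;> linarith
    · have h1 : ∫ β in 𝓡ᶜ, ‖𝓡.indicator (co (Real.sqrt R) 0 g) β‖ ^ 2 = 0 :=
        setIntegral_eq_zero_of_forall_eq_zero fun β hβ => by simp [indicator_of_notMem hβ]
      have h2 := integral_indicator_co_sq_le hT 0 g h𝓡 univ
      rw [Measure.restrict_univ, integral_co_sq hT] at h2
      rw [h1, mul_zero, zero_add]
      gcongr
      linarith
  | succ m ih =>
    obtain ⟨C, hC, ih⟩ := ih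
    have h80 : (0 : ℝ) ≤ 80 ^ d := by positivity
    refine ⟨2 * C + 15 + 2 * 80 ^ d, by linarith, ?_⟩
    intro M R b i hR hb hbR him A hA a t t' ρ₁ ρ₂ ha hab haR ht ht' hρ₁ hρ₂ 𝓡 F h𝓡 hF hfar g
    have hb1 : (1 : ℝ) ≤ b := by exact_mod_cast (by omega : 1 ≤ b)
    have hT : 0 < Real.sqrt R := by positivity
    have ha0 : 0 < a := by linarith
    have ha' : (0 : ℝ) < (b : ℝ) ^ i := by positivity
    have hiR : (b : ℝ) ^ i ≤ Real.sqrt R := by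
      rw [Real.le_sqrt' ha', ← pow_mul]
      exact (pow_le_pow_right₀ hb1 (by omega)).trans hbR
    have hwt := abs_wt_sub_le (b := b) (by omega) i t
    set F' : Set (Ph d) := ⋃ β ∈ F, {β' | ‖pos t (β - β')‖ < 15 * b * Real.sqrt R ∧
      ‖β.2 - β'.2‖ < 15 * b / a} with hF'
    have hF'o : IsOpen F' := isOpen_biUnion fun β _ =>
      (isOpen_lt ((continuous_pos t).comp (continuous_const.sub continuous_id)).norm
        continuous_const).inter (isOpen_lt (continuous_const.sub continuous_snd).norm continuous_const)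
    set H := tower b A (i + 1) M (loc (Real.sqrt R) 0 𝓡 g) t with hH
    have hHn : ‖H‖ ≤ ‖g‖ := (norm_tower_le (by omega) hA _ _ _ _).trans (norm_loc_le hT 0 h𝓡 g)
    rw [tower_eq_loc b A (by omega), lev, loc]
    refine (ch_step hR hb1 ha hab hiR ht' ?_ hF hF'o.measurableSet (fun β hβ β' hβ' => ?_)
      ((memLp_co ha' _ H).indicator (hA _ _))).trans ?_
    · have h1 : a ^ 2 ≤ ((b : ℝ) ^ i) ^ 2 := by gcongr
      have h2 := abs_sub_le t' t (wt b i t)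
      rw [abs_sub_comm t] at h2
      linarith
    · by_contra hcon
      push Not at hcon
      exact hβ' (mem_biUnion hβ hcon)
    · have h1 := ih M R b (i + 1) hR hb hbR (by omega) A hA ((b : ℝ) ^ i) t (wt b i t)
        (ρ₁ - 15 * b * Real.sqrt R) (ρ₂ - 15 * b / a) (one_le_pow₀ hb1)
        (pow_le_pow_right₀ hb1 (by omega)) hiR ht hwt ?_ ?_ 𝓡 F' h𝓡 hF'o.measurableSet ?_ g
      · have h2 := integral_indicator_co_sq_le ha' (wt b i t) H (hA i (win b i t)) univ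
        rw [Measure.restrict_univ, integral_co_sq ha'] at h2
        have h3 := (integral_indicator_co_sq_le ha' (wt b i t) H (hA i (win b i t)) F').trans h1
        have h4 : ‖H‖ ^ 2 ≤ ‖g‖ ^ 2 := by gcongr
        have h5 : 0 ≤ R ^ d * Real.exp (-(b : ℝ)) := by positivity
        have h6 := mul_le_mul_of_nonneg_left (h2.trans h4) (mul_nonneg h80 h5)
        nlinarith [mul_nonneg h5 (sq_nonneg ‖g‖)]
      · have : 0 ≤ (C + 2 * 80 ^ d) * (b * Real.sqrt R) := by positivity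
        nlinarith
      · have e1 : C * b / (b : ℝ) ^ i ≤ C * b / a := by gcongr
        have e2 : (2 * C + 15 + 2 * 80 ^ d) * b / a =
            C * b / a + 15 * b / a + (C + 2 * 80 ^ d) * b / a := by ring
        have e3 : 0 ≤ (C + 2 * 80 ^ d) * b / a := by positivity
        linarith
      · intro β' hβ' β'' hβ''
        obtain ⟨β, hβ, h₁, h₂⟩ := mem_iUnion₂.1 hβ'
        refine (hfar β hβ β'' hβ'').imp (fun h => ?_) (fun h => ?_)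
        · have e : pos t (β - β'') = pos t (β - β') + pos t (β' - β'') := by
            simp only [pos_sub]; abel
          linarith [norm_add_le (pos t (β - β')) (pos t (β' - β'')), e ▸ h]
        · linarith [norm_sub_le_norm_sub_add_norm_sub β.2 β'.2 β''.2]

theorem ch (d : ℕ) : CH d := by
  intro M
  choose C hC h using ch_aux d
  refine ⟨∑ m ∈ Finset.range (M + 2), C m, ?_, ?_⟩
  · exact (hC 0).trans (Finset.single_le_sum (fun m _ => zero_le_one.trans (hC m)) (by simp))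
  intro R b i hR hb hbR hi A hA a t t' ρ₁ ρ₂ ha hab haR ht ht' hρ₁ hρ₂ 𝓡 F h𝓡 hF hfar g
  have hle : C (M + 1 - i) ≤ ∑ m ∈ Finset.range (M + 2), C m :=
    Finset.single_le_sum (fun m _ => zero_le_one.trans (hC m)) (Finset.mem_range.2 (by omega))
  refine (h (M + 1 - i) M R b i hR hb hbR (by omega) A hA a t t' ρ₁ ρ₂ ha hab haR ht ht'
    (le_trans (by gcongr) hρ₁) (le_trans (by gcongr) hρ₂) 𝓡 F h𝓡 hF hfar g).trans ?_
  gcongr

end Crest.Agent.N76.II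
end

-- ▼ part N76/II/LP/One
section

/-! # Row 76, Lemma P: one class in all windows (helper16). -/

set_option autoImplicit false

open MeasureTheory Set Metric
open scoped ENNReal

namespace Crest.Agent.N76.II.LP

open Crest.Agent.N76.Red (V)
open Crest.Agent.N76.G

variable {d : ℕ}

/-- body of `CH` -/
def CHb (d M : ℕ) (C : ℝ) : Prop :=
  ∀ (R : ℝ) (b i : ℕ), 1 ≤ R → 2 ≤ b → (b : ℝ) ^ (2 * M) ≤ R → i ≤ M + 1 →
    ∀ (A : ℕ → ℤ → Set (Ph d)), (∀ l k, MeasurableSet (A l k)) →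
    ∀ (a t t' ρ₁ ρ₂ : ℝ), 1 ≤ a → a ≤ (b : ℝ) ^ i → a ≤ Real.sqrt R → |t| ≤ R → |t' - t| ≤ a ^ 2 →
    C * b * Real.sqrt R ≤ ρ₁ → C * b / a ≤ ρ₂ →
    ∀ (𝓡 F : Set (Ph d)), MeasurableSet 𝓡 → MeasurableSet F →
    (∀ β ∈ F, ∀ β' ∈ 𝓡, ρ₁ ≤ ‖pos t (β - β')‖ ∨ ρ₂ ≤ ‖β.2 - β'.2‖) →
    ∀ g : L2 d, ∫ β in F, ‖co a t' (tower b A i M (loc (Real.sqrt R) 0 𝓡 g) t) β‖ ^ 2 ≤
      C * R ^ d * Real.exp (-(b : ℝ)) * ‖g‖ ^ 2

/-- body of `SG` -/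
def SGb (d : ℕ) (ε : ℝ) (m M b : ℕ) : Prop :=
  ∀ j i : ℕ, j ≤ i → i ≤ M →
    ∀ (ι : Type) (X : Finset ι) (p : ι → V d × ℝ) (w : ι → ℝ) (k₀ : ℤ),
    (∀ z ∈ X, 0 ≤ w z) → (∀ z ∈ X, p z ∈ closedBall (0 : V d × ℝ) ((b : ℝ) ^ (4 * M))) →
    (∀ z ∈ X, win b M (p z).2 = k₀) →
    ∀ (A : ℕ → ℤ → Set (Ph d)), (∀ l k, MeasurableSet (A l k)) →
    (∀ l k, ∀ β ∈ A l k, ‖β.2‖ ≤ 3) →
    ∀ φ N₁ N₂ : ℝ, 0 ≤ φ → 0 ≤ N₁ → 0 ≤ N₂ →
    (∀ c, ms X p w (closedBall c ((b : ℝ) ^ (2 * j))) ≤ N₁) →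
    (∀ c, ms X p w (closedBall c ((b : ℝ) ^ M)) ≤ N₂) →
    (∀ z ∈ X, ∃ F : Finset (V d), (F.card : ℝ) ≤ φ * ((b : ℝ) ^ j) ^ d ∧
      ∀ β ∈ A i (win b i (p z).2), ‖pos (p z).2 β - (p z).1‖ ≤ (b : ℝ) ^ (i + 1) →
        ∃ ζ ∈ F, ‖β.2 - ζ‖ ≤ 1 / (b : ℝ) ^ j) →
    ∀ h : L2 d, En X p w (fun z => tower b A i M h (p z).2) ≤
      ((b : ℝ) ^ (ε * M) * φ * N₁ ^ ((d : ℝ) / (d + 2)) * ((b : ℝ) ^ M * N₂) ^ (2 / ((d : ℝ) + 2))
        + (∑ z ∈ X, w z) / (b : ℝ) ^ (m * M)) * ‖h‖ ^ 2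

theorem split3 {a : ℝ} (ha : 0 < a) (t : ℝ) {Bad : Set (Ph d)} (hBad : MeasurableSet Bad)
    (H : L2 d) : H = loc a t (B3 d \ Bad) H + (loc a t (B3 d ∩ Bad) H + loc a t (B3 d)ᶜ H) := by
  have h3 := measurableSet_B3 (d := d)
  rw [← loc_union ha t (h3.inter hBad) h3.compl
      (disjoint_compl_right.mono_left inter_subset_left),
    ← loc_union ha t (h3.diff hBad) ((h3.inter hBad).union h3.compl), ← union_assoc,
    sdiff_union_inter, union_compl_self, loc_univ ha]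
  rw [Set.disjoint_left]
  rintro β ⟨h1, h2⟩ (h | h)
  · exact h2 h.2
  · exact h h1

theorem tower_update (b : ℕ) (G : ℕ → ℤ → Set (Ph d)) (A' : ℤ → Set (Ph d)) {i M : ℕ} (hi : i ≤ M)
    (h : L2 d) (t : ℝ) : tower b (Function.update G i A') i M h t =
      loc ((b : ℝ) ^ i) (wt b i t) (A' (win b i t)) (tower b G (i + 1) M h t) := by
  rw [tower_eq_loc b _ hi]
  have : tower b (Function.update G i A') (i + 1) M h t = tower b G (i + 1) M h t := by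
    refine tw_congr _ _ (fun j hj => ?_) h
    unfold lev
    rw [Function.update_of_ne (by omega)]
  rw [this]
  unfold lev
  rw [Function.update_self]

theorem update_prop {P : Set (Ph d) → Prop} {G : ℕ → ℤ → Set (Ph d)} (hG : ∀ l k, P (G l k))
    {A' : ℤ → Set (Ph d)} (hA : ∀ k, P (A' k)) (i l : ℕ) (k : ℤ) :
    P (Function.update G i A' l k) := by
  by_cases h : l = i
  · subst h; rw [Function.update_self]; exact hA k
  · rw [Function.update_of_ne h]; exact hG l k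

theorem win_mem {b : ℕ} (hb : 1 ≤ b) {i M : ℕ} (hi : i ≤ M) {t : ℝ} {k₀ : ℤ} (h : win b M t = k₀) :
    win b i t ∈ Finset.Ico (k₀ * (b : ℤ) ^ (2 * (M - i))) ((k₀ + 1) * (b : ℤ) ^ (2 * (M - i))) := by
  rw [win_eq_div b hi] at h
  have hp : (0 : ℤ) < (b : ℤ) ^ (2 * (M - i)) := by positivity
  push_cast at h
  rw [← h]
  exact Finset.mem_Ico.2 ⟨Int.ediv_mul_le _ hp.ne', Int.lt_ediv_add_one_mul_self _ hp⟩

theorem win_bounds {b : ℕ} (hb : 1 ≤ b) (i : ℕ) (t : ℝ) :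
    (win b i t : ℝ) * (b : ℝ) ^ (2 * i) ≤ t ∧
      t ≤ (win b i t : ℝ) * (b : ℝ) ^ (2 * i) + ((b : ℝ) ^ i) ^ 2 := by
  have hL : (0 : ℝ) < (b : ℝ) ^ (2 * i) := by positivity
  have h1 := Int.floor_le (t / (b : ℝ) ^ (2 * i))
  have h2 := Int.lt_floor_add_one (t / (b : ℝ) ^ (2 * i))
  rw [le_div_iff₀ hL] at h1
  rw [div_lt_iff₀ hL] at h2
  unfold win
  rw [← pow_mul, mul_comm i 2]
  constructor <;> linarith

theorem win_self {b : ℕ} (hb : 1 ≤ b) (i : ℕ) (k : ℤ) : win b i (k * (b : ℝ) ^ (2 * i)) = k := by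
  have hL : (0 : ℝ) < (b : ℝ) ^ (2 * i) := by positivity
  unfold win
  rw [mul_div_cancel_right₀ _ hL.ne', Int.floor_intCast]

theorem En_fiber {ι κ : Type*} [DecidableEq κ] {X : Finset ι} (p : ι → V d × ℝ) (w : ι → ℝ) (H : ι → L2 d)
    {s : Finset κ} {f : ι → κ} (hf : ∀ z ∈ X, f z ∈ s) :
    En X p w H = ∑ k ∈ s, En (X.filter fun z => f z = k) p w H :=
  (Finset.sum_fiberwise_of_maps_to hf _).symm

theorem En_congr {ι : Type*} {X : Finset ι} (p : ι → V d × ℝ) (w : ι → ℝ) {H H' : ι → L2 d}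
    (h : ∀ z ∈ X, H z = H' z) : En X p w H = En X p w H' :=
  Finset.sum_congr rfl fun z hz => by rw [h z hz]

theorem abs_snd_le {R : ℝ} {u : V d × ℝ} (h : u ∈ closedBall (0 : V d × ℝ) R) : |u.2| ≤ R :=
  (norm_snd_le u).trans (mem_closedBall_zero_iff.1 h)

theorem ef_bound {M : ℕ} {C : ℝ} (hCH : CHb d M C) {R B K : ℝ} {b i : ℕ} (hR : 1 ≤ R) (hb : 2 ≤ b)
    (hL : (b : ℝ) ^ (2 * M) ≤ R) (hi : i ≤ M) {A : ℕ → ℤ → Set (Ph d)}
    (hA : ∀ l k, MeasurableSet (A l k)) (hK1 : 1 ≤ K) (hKa : K ≤ (b : ℝ) ^ i)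
    (hKT : K ≤ Real.sqrt R) (h1 : C * b * Real.sqrt R + (b + 5) * K ≤ B * Real.sqrt R)
    (h2 : C * b / K ≤ 1 / B ^ 22) (hB : 1 ≤ B) {𝓡 : Set (Ph d)} (h𝓡 : MeasurableSet 𝓡)
    (h𝓡2 : ∀ β ∈ 𝓡, ‖β.2‖ ≤ 2) {u v : V d × ℝ} (hu : |u.2| ≤ R) (huv : dist v u ≤ K)
    {Φ : Set (V d)} (hΦ : MeasurableSet Φ)
    (hΦ' : ∀ β ∈ 𝓡, ‖pos v.2 β - v.1‖ ≤ B * Real.sqrt R → closedBall β.2 (1 / B ^ 22) ⊆ Φ)
    (g : L2 d) :
    ∫ β in {β : Ph d | ‖pos u.2 β - u.1‖ ≤ b * K ∧ β.2 ∉ Φ ∩ closedBall 0 3},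
      ‖co K u.2 (tower b A i M (loc (Real.sqrt R) 0 𝓡 g) u.2) β‖ ^ 2 ≤
      C * R ^ d * Real.exp (-(b : ℝ)) * ‖g‖ ^ 2 := by
  refine hCH R b i hR hb hL (by omega) A hA K u.2 u.2 _ _ hK1 hKa hKT hu
    (by rw [sub_self, abs_zero]; positivity) le_rfl h2 𝓡 _ h𝓡 ?_ ?_ g
  · have m1 : MeasurableSet {β : Ph d | ‖pos u.2 β - u.1‖ ≤ b * K} :=
      (isClosed_le ((continuous_pos _).sub continuous_const).norm continuous_const).measurableSet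
    exact m1.inter (measurable_snd (hΦ.inter measurableSet_closedBall).compl)
  · rintro β ⟨hβ1, hβ2⟩ β' hβ'
    by_contra hcon
    push Not at hcon
    obtain ⟨c1, c2⟩ := hcon
    apply hβ2
    have hx : ‖v.1 - u.1‖ ≤ K := by
      rw [← dist_eq_norm]; exact (le_max_left _ _).trans huv
    have ht : |u.2 - v.2| ≤ K := by
      rw [abs_sub_comm, ← Real.dist_eq]; exact (le_max_right _ _).trans huv
    have e : pos v.2 β' - v.1 = (pos u.2 β - u.1) - pos u.2 (β - β') + (2 * (u.2 - v.2)) • β'.2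
        - (v.1 - u.1) := by
      simp only [pos, Prod.fst_sub, Prod.snd_sub, mul_sub, sub_smul, smul_sub]; abel
    have h3 : ‖(2 * (u.2 - v.2)) • β'.2‖ ≤ 4 * K := by
      rw [norm_smul, Real.norm_eq_abs, abs_mul, abs_two]
      have := h𝓡2 β' hβ'
      calc 2 * |u.2 - v.2| * ‖β'.2‖ ≤ 2 * K * 2 := by gcongr
        _ = _ := by ring
    have h4 : ‖pos v.2 β' - v.1‖ ≤ B * Real.sqrt R := by
      rw [e]
      have a1 := norm_sub_le ((pos u.2 β - u.1) - pos u.2 (β - β') + (2 * (u.2 - v.2)) • β'.2)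
        (v.1 - u.1)
      have a2 := norm_add_le ((pos u.2 β - u.1) - pos u.2 (β - β')) ((2 * (u.2 - v.2)) • β'.2)
      have a3 := norm_sub_le (pos u.2 β - u.1) (pos u.2 (β - β'))
      linarith
    refine ⟨hΦ' β' hβ' h4 (mem_closedBall_iff_norm.2 c2.le), mem_closedBall_zero_iff.2 ?_⟩
    have a1 := norm_le_norm_add_norm_sub' β.2 β'.2
    have a2 : 1 / B ^ 22 ≤ 1 := div_le_one_of_le₀ (one_le_pow₀ hB) (by positivity)
    linarith [h𝓡2 β' hβ']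

theorem far_bound {M : ℕ} {C : ℝ} (hCH : CHb d M C) {R : ℝ} {b i : ℕ} (hR : 1 ≤ R) (hb : 2 ≤ b)
    (hL : (b : ℝ) ^ (2 * M) ≤ R) (hi : i ≤ M) {A : ℕ → ℤ → Set (Ph d)}
    (hA : ∀ l k, MeasurableSet (A l k)) (h2 : C * b / (b : ℝ) ^ i ≤ 1)
    {𝓡 : Set (Ph d)} (h𝓡 : MeasurableSet 𝓡) (h𝓡2 : ∀ β ∈ 𝓡, ‖β.2‖ ≤ 2) {t : ℝ} (ht : |t| ≤ R)
    (g : L2 d) :
    ‖loc ((b : ℝ) ^ i) (wt b i t) (B3 d)ᶜ (tower b A (i + 1) M (loc (Real.sqrt R) 0 𝓡 g) t)‖ ^ 2 ≤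
      C * R ^ d * Real.exp (-(b : ℝ)) * ‖g‖ ^ 2 := by
  have hb1 : (1 : ℝ) ≤ b := by exact_mod_cast (by omega : 1 ≤ b)
  refine (norm_loc_sq_le (by positivity) _ measurableSet_B3.compl _).trans ?_
  refine hCH R b (i + 1) hR hb hL (by omega) A hA _ t _ _ 1 (one_le_pow₀ hb1)
    (pow_le_pow_right₀ hb1 (by omega)) ?_ ht (abs_wt_sub_le (by omega) i t) le_rfl h2 𝓡 _ h𝓡
    measurableSet_B3.compl ?_ g
  · refine Real.le_sqrt_of_sq_le (le_trans ?_ hL)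
    rw [← pow_mul]; exact pow_le_pow_right₀ hb1 (by omega)
  · intro β hβ β' hβ'
    right
    have h1 : 3 < ‖β.2‖ := not_le.1 hβ
    linarith [norm_le_norm_add_norm_sub' β.2 β'.2, h𝓡2 β' hβ']

set_option maxHeartbeats 800000 in
theorem class_energy {M m : ℕ} {Cch ε : ℝ} {b : ℕ} (hCH : CHb d M Cch) (hSG : SGb d ε m M b)
    {θ a' η Cc C R B K₀ Km r K N N₂ : ℝ} {i j : ℕ} (hC : 0 ≤ C) (hCch : 0 ≤ Cch)
    (hR : 1 ≤ R) (hB : 1 ≤ B) (hb : 2 ≤ b)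
    (hL : (b : ℝ) ^ (2 * M) ≤ R) (hR4 : R ≤ (b : ℝ) ^ (4 * M)) (hi : i ≤ M) (hj : j ≤ i)
    (hK1 : 1 ≤ K) (hKa : K ≤ (b : ℝ) ^ i) (hKT : K ≤ Real.sqrt R)
    (h1 : Cch * b * Real.sqrt R + (b + 5) * K ≤ B * Real.sqrt R) (h2 : Cch * b / K ≤ 1 / B ^ 22)
    {ι : Type} {X : Finset ι} {p : ι → V d × ℝ} {w : ι → ℝ} {k₀ : ℤ} (hw : ∀ z ∈ X, 0 ≤ w z)
    (hp : ∀ z ∈ X, p z ∈ closedBall (0 : V d × ℝ) R) (hwin : ∀ z ∈ X, win b M (p z).2 = k₀)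
    (hN₂ : 0 ≤ N₂) (hm1 : ∀ c, ms X p w (closedBall c ((b : ℝ) ^ (2 * j))) ≤ B)
    (hm2 : ∀ c, ms X p w (closedBall c ((b : ℝ) ^ M)) ≤ N₂)
    {G : ℕ → ℤ → Set (Ph d)} (hG : ∀ l k, MeasurableSet (G l k))
    (hG3 : ∀ l k, ∀ β ∈ G l k, ‖β.2‖ ≤ 3)
    {Xc : ℤ → Finset ι} (hXc : ∀ k, ∀ z ∈ Xc k, z ∈ X ∧ win b i (p z).2 = k)
    {Bad : ℤ → Set (Ph d)} {E : ℤ → Finset ι}
    (hout : ∀ k : ℤ, CWOut θ a' η Cc C R B K₀ Km ((b : ℝ) ^ i) b ((b : ℝ) ^ j) r K N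
      (k * (b : ℝ) ^ (2 * i)) X (Xc k) p w (Bad k) (E k))
    {Y : Finset ι} (hY : ∀ z ∈ Y, z ∈ Xc (win b i (p z).2) ∧ z ∉ E (win b i (p z).2))
    {𝓡 : Set (Ph d)} (h𝓡 : MeasurableSet 𝓡) (h𝓡2 : ∀ β ∈ 𝓡, ‖β.2‖ ≤ 2) {φ : ℝ} (hφ : 0 ≤ φ)
    (hcoef : 0 ≤ coef d θ a' η Cc B K₀ K N φ)
    (hΦ : ∀ z ∈ Y, ∃ Φ : Set (V d), MeasurableSet Φ ∧
      volume (Φ ∩ closedBall 0 3) ≤ ENNReal.ofReal φ ∧
      ∀ β ∈ 𝓡, ‖pos (p z).2 β - (p z).1‖ ≤ B * Real.sqrt R → closedBall β.2 (1 / B ^ 22) ⊆ Φ)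
    (g : L2 d) :
    En Y p w (fun z => tower b G (i + 1) M (loc (Real.sqrt R) 0 𝓡 g) (p z).2) ≤
      2 * C * coef d θ a' η Cc B K₀ K N φ *
        ((∑ k ∈ Finset.Ico (k₀ * (b : ℤ) ^ (2 * (M - i))) ((k₀ + 1) * (b : ℤ) ^ (2 * (M - i))),
          ∫ β in {β : Ph d | ‖β.2‖ ≤ 3}, xray (vv X p w (Ssc (d + 1) R ^ 2 * B ^ 3))
            ((k - 1) * (b : ℝ) ^ (2 * i)) ((k + 2) * (b : ℝ) ^ (2 * i)) β *
          ‖co ((b : ℝ) ^ i) (k * (b : ℝ) ^ (2 * i))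
            (tower b G (i + 1) M (loc (Real.sqrt R) 0 𝓡 g) (k * (b : ℝ) ^ (2 * i))) β‖ ^ 2)
          + (b : ℝ) ^ (2 * M) / (B * Ssc (d + 1) R ^ 2) * ‖g‖ ^ 2)
      + (4 * ((b : ℝ) ^ (ε * M) * (1 / B ^ 3) * B ^ ((d : ℝ) / (d + 2)) *
          ((b : ℝ) ^ M * N₂) ^ (2 / ((d : ℝ) + 2)) + (∑ z ∈ Y, w z) / (b : ℝ) ^ (m * M))
        + (2 * C + 4) * (Cch + 1) * ((∑ z ∈ Y, w z) * R ^ d * Real.exp (-(b : ℝ)))) * ‖g‖ ^ 2 := by
  classical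
  have hb' : 1 ≤ b := by omega
  have hb1 : (1 : ℝ) ≤ b := by exact_mod_cast hb'
  have ha0 : (0 : ℝ) < (b : ℝ) ^ i := by positivity
  have hT0 : 0 < Real.sqrt R := Real.sqrt_pos.2 (by linarith)
  have hYX : Y ⊆ X := fun z hz => (hXc _ z (hY z hz).1).1
  have hwY : ∀ z ∈ Y, 0 ≤ w z := fun z hz => hw z (hYX hz)
  have hsY : 0 ≤ ∑ z ∈ Y, w z := Finset.sum_nonneg hwY
  set g' := loc (Real.sqrt R) 0 𝓡 g with hg'
  have hg'n : ‖g'‖ ≤ ‖g‖ := norm_loc_le hT0 0 h𝓡 g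
  have hBad : ∀ k, MeasurableSet (Bad k) := fun k => (hout k).1
  set Ef := Cch * R ^ d * Real.exp (-(b : ℝ)) * ‖g‖ ^ 2 with hEf
  have hEf0 : 0 ≤ Ef := by positivity
  set Hz : ι → L2 d := fun z => tower b G (i + 1) M g' (p z).2 with hHz
  set tz : ι → ℝ := fun z => wt b i (p z).2 with htz
  set kz : ι → ℤ := fun z => win b i (p z).2 with hkz
  have s1 : En Y p w Hz ≤ 2 * En Y p w (fun z => loc ((b : ℝ) ^ i) (tz z) (B3 d \ Bad (kz z)) (Hz z))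
      + 2 * (2 * En Y p w (fun z => loc ((b : ℝ) ^ i) (tz z) (B3 d ∩ Bad (kz z)) (Hz z)) +
        2 * En Y p w (fun z => loc ((b : ℝ) ^ i) (tz z) (B3 d)ᶜ (Hz z))) := by
    rw [En_congr p w (fun z _ => split3 ha0 (tz z) (hBad (kz z)) (Hz z))]
    refine (En_add_le hwY _ _).trans ?_
    gcongr
    exact En_add_le hwY _ _
  have s2 : En Y p w (fun z => loc ((b : ℝ) ^ i) (tz z) (B3 d)ᶜ (Hz z)) ≤ (∑ z ∈ Y, w z) * Ef := by
    refine En_le_mass hwY _ fun z hz => far_bound hCH hR hb hL hi hG ?_ h𝓡 h𝓡2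
      (abs_snd_le (hp z (hYX hz))) g
    calc Cch * b / (b : ℝ) ^ i ≤ Cch * b / K := by gcongr
      _ ≤ 1 / B ^ 22 := h2
      _ ≤ 1 := div_le_one_of_le₀ (one_le_pow₀ hB) (by positivity)
  have s3 : En Y p w (fun z => loc ((b : ℝ) ^ i) (tz z) (B3 d ∩ Bad (kz z)) (Hz z)) ≤
      ((b : ℝ) ^ (ε * M) * (1 / B ^ 3) * B ^ ((d : ℝ) / (d + 2)) *
        ((b : ℝ) ^ M * N₂) ^ (2 / ((d : ℝ) + 2)) + (∑ z ∈ Y, w z) / (b : ℝ) ^ (m * M)) * ‖g‖ ^ 2 := by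
    have := hSG j i hj hi ι Y p w k₀ hwY
      (fun z hz => closedBall_subset_closedBall hR4 (hp z (hYX hz))) (fun z hz => hwin z (hYX hz))
      (Function.update G i fun k => B3 d ∩ Bad k)
      (update_prop (P := MeasurableSet) hG (fun k => measurableSet_B3.inter (hBad k)) i)
      (update_prop (P := fun A => ∀ β ∈ A, ‖β.2‖ ≤ 3) hG3 (fun k β hβ => hβ.1) i)
      (1 / B ^ 3) B N₂ (by positivity) (by linarith) hN₂
      (fun c => (II.B.ms_mono hw hYX fun _ _ h => h).trans (hm1 c))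
      (fun c => (II.B.ms_mono hw hYX fun _ _ h => h).trans (hm2 c))
      (fun z hz => by
        obtain ⟨F, hF1, hF2⟩ := (hout _).2.2.1 z (hY z hz).1 (hY z hz).2
        refine ⟨F, hF1, fun β hβ hn => ?_⟩
        rw [Function.update_self] at hβ
        exact hF2 β hβ.2 hβ.1 (by rw [← pow_succ]; exact hn)) g'
    simp only [tower_update b G _ hi] at this
    refine this.trans ?_
    gcongr
  set s := Finset.Ico (k₀ * (b : ℤ) ^ (2 * (M - i))) ((k₀ + 1) * (b : ℤ) ^ (2 * (M - i))) with hs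
  have hks : ∀ z ∈ Y, kz z ∈ s := fun z hz => win_mem hb' hi (hwin z (hYX hz))
  set Ik : ℤ → ℝ := fun k => ∫ β in {β : Ph d | ‖β.2‖ ≤ 3},
    xray (vv X p w (Ssc (d + 1) R ^ 2 * B ^ 3))
      ((k - 1) * (b : ℝ) ^ (2 * i)) ((k + 2) * (b : ℝ) ^ (2 * i)) β *
      ‖co ((b : ℝ) ^ i) (k * (b : ℝ) ^ (2 * i))
        (tower b G (i + 1) M g' (k * (b : ℝ) ^ (2 * i))) β‖ ^ 2 with hIk
  have asq : ((b : ℝ) ^ i) ^ 2 = (b : ℝ) ^ (2 * i) := by rw [← pow_mul, mul_comm]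
  have hS1 := one_le_Ssc hR (d + 1)
  have s4 : ∀ k ∈ s, En (Y.filter fun z => kz z = k) p w
      (fun z => loc ((b : ℝ) ^ i) (tz z) (B3 d \ Bad (kz z)) (Hz z)) ≤
      C * coef d θ a' η Cc B K₀ K N φ *
        (Ik k + (b : ℝ) ^ (2 * i) / (B * Ssc (d + 1) R ^ 2) * ‖g‖ ^ 2)
      + C * (∑ z ∈ Y.filter (fun z => kz z = k), w z) * (Ef + Real.exp (-(b : ℝ)) * ‖g‖ ^ 2) := by
    intro k _
    set Hk := tower b G (i + 1) M g' (k * (b : ℝ) ^ (2 * i)) with hHk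
    have hHk' : ∀ t, win b i t = k → tower b G (i + 1) M g' t = Hk := fun t ht =>
      tower_congr hb' G M g' (win_of_win_eq hb' (Nat.le_succ i) (ht.trans (win_self hb' i k).symm))
    have hHn : ‖Hk‖ ≤ ‖g‖ := (norm_tower_le hb' hG _ _ _ _).trans hg'n
    rw [En_congr p w (H' := fun _ => loc ((b : ℝ) ^ i) (k * (b : ℝ) ^ (2 * i)) (B3 d \ Bad k) Hk)
      (fun z hz => by
        have hz' : win b i (p z).2 = k := (Finset.mem_filter.1 hz).2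
        simp only [htz, hkz, hHz, wt, hz', hHk' _ hz'])]
    have := (hout k).2.2.2 (Y.filter fun z => kz z = k) Hk φ Ef
      (fun z hz => by
        obtain ⟨h3, h4⟩ := Finset.mem_filter.1 hz
        rw [← h4]; exact (hY z h3).1) hφ hEf0
      (fun z hz => by
        obtain ⟨Φ, f1, f2, f3⟩ := hΦ z (Finset.mem_filter.1 hz).1
        refine ⟨Φ ∩ closedBall 0 3, f1.inter measurableSet_closedBall, f2, inter_subset_right,
          fun c hc hd => ?_⟩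
        obtain ⟨c1, c2⟩ := hXc k c hc
        have := ef_bound hCH hR hb hL hi
          (update_prop (P := MeasurableSet) hG (A' := fun k => B3 d \ Bad k)
            (fun k => measurableSet_B3.diff (hBad k)) i) hK1 hKa hKT h1 h2 hB h𝓡 h𝓡2
          (abs_snd_le (hp c c1)) hd f1 f3 g
        rw [tower_update b G _ hi] at this
        simpa only [wt, c2, ← hg', hHk' _ c2] using this)
    refine this.trans ?_
    have hsk : 0 ≤ ∑ z ∈ Y.filter (fun z => kz z = k), w z :=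
      Finset.sum_nonneg fun z hz => hwY z (Finset.mem_filter.1 hz).1
    rw [asq, show (k : ℝ) * (b : ℝ) ^ (2 * i) - (b : ℝ) ^ (2 * i) = (k - 1) * (b : ℝ) ^ (2 * i) by ring,
      show (k : ℝ) * (b : ℝ) ^ (2 * i) + 2 * (b : ℝ) ^ (2 * i) = (k + 2) * (b : ℝ) ^ (2 * i) by ring]
    gcongr
    exact le_rfl
  have hcard : (s.card : ℝ) * (b : ℝ) ^ (2 * i) = (b : ℝ) ^ (2 * M) := by
    have : (s.card : ℤ) = (b : ℤ) ^ (2 * (M - i)) := by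
      rw [hs, Int.card_Ico_of_le _ _ (by
        have : (0 : ℤ) < (b : ℤ) ^ (2 * (M - i)) := by positivity
        linarith)]
      ring
    have h3 : (s.card : ℝ) = (b : ℝ) ^ (2 * (M - i)) := by exact_mod_cast this
    rw [h3, ← pow_add]; congr 1; omega
  have s5 : En Y p w (fun z => loc ((b : ℝ) ^ i) (tz z) (B3 d \ Bad (kz z)) (Hz z)) ≤
      C * coef d θ a' η Cc B K₀ K N φ *
        ((∑ k ∈ s, Ik k) + (b : ℝ) ^ (2 * M) / (B * Ssc (d + 1) R ^ 2) * ‖g‖ ^ 2)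
      + C * (∑ z ∈ Y, w z) * (Ef + Real.exp (-(b : ℝ)) * ‖g‖ ^ 2) := by
    rw [En_fiber p w _ hks]
    refine (Finset.sum_le_sum s4).trans (le_of_eq ?_)
    rw [Finset.sum_add_distrib, ← Finset.mul_sum, Finset.sum_add_distrib, ← Finset.sum_mul,
      ← Finset.sum_mul, ← Finset.mul_sum, Finset.sum_fiberwise_of_maps_to hks, Finset.sum_const, nsmul_eq_mul,
      ← hcard]
    ring
  have hRd : 1 ≤ R ^ d := one_le_pow₀ hR
  have s6 : Real.exp (-(b : ℝ)) * ‖g‖ ^ 2 ≤ R ^ d * Real.exp (-(b : ℝ)) * ‖g‖ ^ 2 := by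
    rw [mul_assoc]; exact le_mul_of_one_le_left (by positivity) hRd
  set W := ∑ z ∈ Y, w z
  set e := R ^ d * Real.exp (-(b : ℝ)) * ‖g‖ ^ 2 with he
  have he0 : 0 ≤ e := by positivity
  have hEe : Ef = Cch * e := by rw [hEf, he]; ring
  have s7 : C * W * (Ef + Real.exp (-(b : ℝ)) * ‖g‖ ^ 2) ≤ C * W * (Cch * e + e) := by
    rw [hEe]; gcongr
  have s8 : 0 ≤ W * e := by positivity
  have e2 : (2 * C + 4) * (Cch + 1) * (W * R ^ d * Real.exp (-(b : ℝ))) * ‖g‖ ^ 2 =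
      2 * (C * W * (Cch * e + e)) + 4 * (W * (Cch * e)) + 4 * (W * e) := by rw [he]; ring
  rw [add_mul, e2]
  rw [hEe] at s2
  linarith

end Crest.Agent.N76.II.LP
end

-- ▼ part N76/II/LP/Bnd

/-! # Row 76, Lemma P: auxiliary bounds (helper16). -/

set_option autoImplicit false

open MeasureTheory Set Metric
open scoped ENNReal

namespace Crest.Agent.N76.II.LP

open Crest.Agent.N76.Red (V)
open Crest.Agent.N76.G

variable {d : ℕ}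

theorem card_Ico_win {b : ℕ} (hb : 1 ≤ b) {i M : ℕ} (hi : i ≤ M) (k₀ : ℤ) :
    ((Finset.Ico (k₀ * (b : ℤ) ^ (2 * (M - i))) ((k₀ + 1) * (b : ℤ) ^ (2 * (M - i)))).card : ℝ) *
      (b : ℝ) ^ (2 * i) = (b : ℝ) ^ (2 * M) := by
  have : ((Finset.Ico (k₀ * (b : ℤ) ^ (2 * (M - i))) ((k₀ + 1) * (b : ℤ) ^ (2 * (M - i)))).card : ℤ)
      = (b : ℤ) ^ (2 * (M - i)) := by
    rw [Int.card_Ico_of_le _ _ (by
      have : (0 : ℤ) < (b : ℤ) ^ (2 * (M - i)) := by positivity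
      linarith)]
    ring
  have h3 : ((Finset.Ico (k₀ * (b : ℤ) ^ (2 * (M - i)))
      ((k₀ + 1) * (b : ℤ) ^ (2 * (M - i)))).card : ℝ) = (b : ℝ) ^ (2 * (M - i)) := by
    exact_mod_cast this
  rw [h3, ← pow_add]; congr 1; omega

theorem int_xray_le {W : V d × ℝ → ℝ} {Mx r : ℝ} (hW : Nice W Mx r) {t₁ t₂ : ℝ} (h : t₁ ≤ t₂)
    {a : ℝ} (ha : 0 < a) (t : ℝ) (H : L2 d) (A : Set (Ph d)) :
    ∫ β in A, xray W t₁ t₂ β * ‖co a t H β‖ ^ 2 ≤ Mx * (t₂ - t₁) * ‖H‖ ^ 2 := by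
  have h0 : ∀ β, 0 ≤ xray W t₁ t₂ β := xray_nonneg (fun u => (hW.2.1 u).1) h
  have h1 : ∀ β, xray W t₁ t₂ β ≤ Mx * (t₂ - t₁) := xray_le hW.1 (fun u => (hW.2.1 u).2) h
  have hi : Integrable fun β => xray W t₁ t₂ β * ‖co a t H β‖ ^ 2 :=
    integrable_weight (continuous_xray hW.1 _ _).measurable
      (fun β => by rw [abs_of_nonneg (h0 β)]; exact h1 β) (memLp_co ha t H)
  refine (setIntegral_le_integral hi (.of_forall fun β => mul_nonneg (h0 β) (by positivity))).trans ?_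
  rw [← integral_co_sq ha t H, ← integral_const_mul]
  exact integral_mono hi ((Iso.integrable_co_sq ha t H).const_mul _) fun β =>
    mul_le_mul_of_nonneg_right (h1 β) (by positivity)

theorem scale_le {η B : ℝ} (hη : 0 < η) (hB : 2 ≤ B) {k₀ j : ℕ} (hk : (2 : ℝ) ^ k₀ ≤ 2 * B ^ 30)
    (hj : ((2 : ℝ) ^ j) ^ η ≤ B ^ 7) : (2 : ℝ) ^ (k₀ + j) ≤ B ^ (31 + ⌈7 / η⌉₊) := by
  have h1 : (2 : ℝ) ^ j ≤ B ^ ⌈7 / η⌉₊ := by
    calc (2 : ℝ) ^ j = (((2 : ℝ) ^ j) ^ η) ^ (1 / η) := by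
          rw [← Real.rpow_mul (by positivity), mul_one_div_cancel hη.ne', Real.rpow_one]
      _ ≤ (B ^ 7) ^ (1 / η) := by gcongr
      _ = B ^ (7 / η) := by
          rw [← Real.rpow_natCast, ← Real.rpow_mul (by linarith)]; congr 1; push_cast; ring
      _ ≤ B ^ ((⌈7 / η⌉₊ : ℕ) : ℝ) :=
          Real.rpow_le_rpow_of_exponent_le (by linarith) (Nat.le_ceil _)
      _ = _ := Real.rpow_natCast _ _
  calc (2 : ℝ) ^ (k₀ + j) = 2 ^ k₀ * 2 ^ j := pow_add _ _ _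
    _ ≤ (B * B ^ 30) * B ^ ⌈7 / η⌉₊ := by gcongr; exact hk.trans (by gcongr)
    _ = _ := by ring

theorem basic_sizes {α : ℝ} (hα : 0 < α) {E M b : ℕ} (hE : 2 ≤ E) (hM : 1 / α ≤ M) (hM1 : 1 ≤ M)
    {R B b₁ : ℝ} (hR : 1 ≤ R) (hb₁ : 0 ≤ b₁) (hR₀ : b₁ ^ (4 * M) ≤ R) (h1 : R ^ α ≤ B)
    (h2 : B ≤ R ^ (1 / (2 * ((d : ℝ) + 2) * E))) (h3 : R / B ≤ (b : ℝ) ^ (2 * M))
    (h4 : (b : ℝ) ^ (2 * M) ≤ R) :
    B ^ E ≤ Ssc (d + 1) R ∧ R ≤ (b : ℝ) ^ (4 * M) ∧ b₁ ≤ b ∧ (b : ℝ) ^ 2 ≤ B ∧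
      (b : ℝ) ^ (α / 2 * M) ≤ B ^ (1 / 4 : ℝ) := by
  have hB1 : 1 ≤ B := (Real.one_le_rpow hR hα.le).trans h1
  have hR0 : 0 < R := by linarith
  have hE0 : (0 : ℝ) < E := by exact_mod_cast (by omega : 0 < E)
  have e1 : B ^ E ≤ Ssc (d + 1) R := by
    calc B ^ E ≤ (R ^ (1 / (2 * ((d : ℝ) + 2) * E))) ^ E := by gcongr
      _ = _ := by
          unfold Ssc
          rw [← Real.rpow_natCast, ← Real.rpow_mul hR0.le]; congr 1; push_cast; field_simp; ring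
  have e2 : Ssc (d + 1) R ≤ R := by
    unfold Ssc
    refine le_trans (Real.rpow_le_rpow_of_exponent_le hR ?_) (Real.rpow_one R).le
    rw [div_le_one (by positivity)]; push_cast
    linarith [(Nat.cast_nonneg d : (0 : ℝ) ≤ d)]
  have e3 : B ^ 2 ≤ R := (pow_le_pow_right₀ hB1 hE).trans (e1.trans e2)
  have e4 : R ≤ (b : ℝ) ^ (4 * M) := by
    calc R ≤ (R / B) ^ 2 := by
          rw [div_pow, le_div_iff₀ (by positivity), sq R]; gcongr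
      _ ≤ ((b : ℝ) ^ (2 * M)) ^ 2 := by gcongr
      _ = _ := by ring
  refine ⟨e1, e4, ?_, ?_, ?_⟩
  · exact (pow_le_pow_iff_left₀ hb₁ (by positivity) (by omega)).1 (hR₀.trans e4)
  · refine (pow_le_pow_iff_left₀ (by positivity) (by linarith) (by omega : M ≠ 0)).1 ?_
    rw [← pow_mul]
    calc _ ≤ R := h4
      _ = (R ^ α) ^ (1 / α) := by
          rw [← Real.rpow_mul hR0.le, mul_one_div_cancel hα.ne', Real.rpow_one]
      _ ≤ B ^ (1 / α) := by gcongr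
      _ ≤ B ^ (M : ℝ) := Real.rpow_le_rpow_of_exponent_le hB1 hM
      _ = _ := Real.rpow_natCast _ _
  · calc (b : ℝ) ^ (α / 2 * M) = ((b : ℝ) ^ (2 * M)) ^ (α * (1 / 4)) := by
          rw [← Real.rpow_natCast, ← Real.rpow_mul (by positivity)]; congr 1; push_cast; ring
      _ ≤ R ^ (α * (1 / 4)) := by gcongr
      _ = (R ^ α) ^ (1 / 4 : ℝ) := Real.rpow_mul hR0.le _ _
      _ ≤ _ := by gcongr

theorem cov_num {κ : ℕ} {R B C n L r sq : ℝ} (hR : 1 ≤ R) (hB : 1 ≤ B) (hC : 0 ≤ C) (hCB : 20 * C ≤ B)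
    (hn : n ≤ B) (hL : 0 ≤ L) (hsq0 : 0 ≤ sq) (hsq : sq ≤ 1 / B ^ (κ + 105))
    (h1 : Ssc (d + 1) R ≤ r) (h2 : r ≤ Ssc (d + 1) R ^ 2)
    (h3 : Ssc (d + 1) R ^ 2 ≤ r * (20 * B ^ (30 + κ))) :
    n * (C * sq * B ^ 71 * R ^ d * L / r ^ (d + 1)) ≤ R ^ d * L / (B * Real.sqrt R * prd d R r) := by
  have hS1 := one_le_Ssc hR (d + 1)
  have hr0 : 0 < r := by linarith
  have hB0 : 0 < B := by linarith
  have hp := one_le_prd (d := d) R r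
  have hT : 0 < Real.sqrt R := Real.sqrt_pos.2 (by linarith)
  have h4 : B * Real.sqrt R * prd d R r ≤ B * (r ^ d * (r * (20 * B ^ (30 + κ)))) := by
    rw [mul_assoc]
    exact mul_le_mul_of_nonneg_left ((prd_le_mid hR h1 h2).trans (by gcongr)) hB0.le
  calc _ ≤ B * (C * (1 / B ^ (κ + 105)) * B ^ 71 * R ^ d * L / r ^ (d + 1)) := by gcongr
    _ = (20 * C) / B ^ 2 * (R ^ d * L / (B * (r ^ d * (r * (20 * B ^ (30 + κ)))))) := by
        field_simp; ring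
    _ ≤ 1 * (R ^ d * L / (B * Real.sqrt R * prd d R r)) := by
        gcongr
        rw [div_le_one (by positivity)]
        exact hCB.trans (by simpa using pow_le_pow_right₀ hB (by norm_num : 1 ≤ 2))
    _ = _ := one_mul _

theorem ch_num {C B K T b : ℝ} (hC : 0 ≤ C) (hb : 2 * C ≤ b) (hb5 : 5 ≤ b) (hbB : b ^ 2 ≤ B)
    (hK : B ^ 30 ≤ K) (hKT : K ≤ T) :
    C * b * T + (b + 5) * K ≤ B * T ∧ C * b / K ≤ 1 / B ^ 22 := by
  have hB1 : 1 ≤ B := by nlinarith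
  have hK0 : 0 < K := lt_of_lt_of_le (by positivity) hK
  have h1 : C * b ≤ B / 2 := by nlinarith
  have h2 : b + 5 ≤ B / 2 := by nlinarith
  constructor
  · calc C * b * T + (b + 5) * K ≤ B / 2 * T + B / 2 * T := by
          have : 0 ≤ T := by linarith
          gcongr
      _ = _ := by ring
  · rw [div_le_div_iff₀ hK0 (by positivity), one_mul]
    calc C * b * B ^ 22 ≤ B * B ^ 22 := by gcongr; linarith
      _ = B ^ 23 := by ring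
      _ ≤ B ^ 30 := pow_le_pow_right₀ hB1 (by norm_num)
      _ ≤ K := hK

theorem final_arith {C Cs Cu Cd Cch ω P φ φ₀ I Mn lam g n B e1 e2 e3 S1 S2 S3 Xs : ℝ}
    (hC : 0 ≤ C) (hCs : 0 ≤ Cs) (hCu : 0 ≤ Cu) (hCd : 0 ≤ Cd) (hCch : 0 ≤ Cch) (hP : 0 ≤ P)
    (hφ : 0 ≤ φ) (hφ₀ : φ ≤ φ₀) (hφω : φ ≤ ω) (hI0 : 0 ≤ I) (hMn : 0 ≤ Mn) (hB : 1 ≤ B)
    (hlam : B ≤ lam) (hg : 0 ≤ g) (hn : n ≤ B) (hI1 : I ≤ Cu * Mn + Cu * lam * g)
    (hI2 : I ≤ 3 * Cd * B ^ 2 * lam * g) (hS1 : S1 ≤ Cs * φ + n * (1 / B ^ 3))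
    (hX : Xs ≤ lam) (hS2 : S2 ≤ 1) (hS3 : S3 ≤ 1)
    (h1 : e1 ≤ 2 * (e2 + e3) + Cu * lam * g) (h2 : e2 ≤ (P * lam + 1) * g)
    (h3 : e3 ≤ 2 * C * S1 * (I + lam * g) + (4 * (Xs + S2) + (2 * C + 4) * (Cch + 1) * S3) * g) :
    e1 ≤ (4 * C * Cs * Cu + (4 * C * (Cs * ω * (Cu + 1) + 3 * Cd + 1) + 16 +
        2 * ((2 * C + 4) * (Cch + 1)) + 2 * (P + 1) + Cu)) * φ₀ * Mn +
      (4 * C * Cs * Cu + (4 * C * (Cs * ω * (Cu + 1) + 3 * Cd + 1) + 16 +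
        2 * ((2 * C + 4) * (Cch + 1)) + 2 * (P + 1) + Cu)) * lam * g := by
  have hB0 : 0 < B := by linarith
  have hl1 : 1 ≤ lam := hB.trans hlam
  have hω : 0 ≤ ω := hφ.trans hφω
  have hφ0 : 0 ≤ φ₀ := hφ.trans hφ₀
  set x := lam * g with hx
  have hx0 : 0 ≤ x := by positivity
  have hgx : g ≤ x := le_mul_of_one_le_left hg hl1
  have a1 : φ * (I + x) ≤ Cu * (φ₀ * Mn) + ω * (Cu + 1) * x := by
    calc φ * (I + x) ≤ φ * (Cu * Mn + Cu * lam * g + x) := by gcongr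
      _ = Cu * (φ * Mn) + φ * (Cu + 1) * x := by rw [hx]; ring
      _ ≤ _ := by gcongr
  have a2 : n * (1 / B ^ 3) * (I + x) ≤ (3 * Cd + 1) * x := by
    calc n * (1 / B ^ 3) * (I + x) ≤ B * (1 / B ^ 3) * (3 * Cd * B ^ 2 * lam * g + B ^ 2 * x) := by
          gcongr
          exact le_mul_of_one_le_left hx0 (one_le_pow₀ hB)
      _ = _ := by rw [hx]; field_simp
  have a3 : S1 * (I + x) ≤ Cs * (Cu * (φ₀ * Mn) + ω * (Cu + 1) * x) + (3 * Cd + 1) * x := by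
    calc S1 * (I + x) ≤ (Cs * φ + n * (1 / B ^ 3)) * (I + x) := by gcongr
      _ = Cs * (φ * (I + x)) + n * (1 / B ^ 3) * (I + x) := by ring
      _ ≤ _ := by gcongr
  set Q := (2 * C + 4) * (Cch + 1) with hQ
  have hQ0 : 0 ≤ Q := by positivity
  have a4 : (4 * (Xs + S2) + Q * S3) * g ≤ 8 * x + Q * x := by
    calc (4 * (Xs + S2) + Q * S3) * g ≤ (4 * (lam + lam) + Q * lam) * g := by
          gcongr <;> linarith
      _ = _ := by rw [hx]; ring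
  have a5 : 2 * C * S1 * (I + x) ≤
      2 * C * (Cs * (Cu * (φ₀ * Mn) + ω * (Cu + 1) * x) + (3 * Cd + 1) * x) := by
    rw [mul_assoc]; gcongr
  have a6 : (P * lam + 1) * g ≤ (P + 1) * x := by rw [hx]; nlinarith
  have a7 : 0 ≤ (4 * C * (Cs * ω * (Cu + 1) + 3 * Cd + 1) + 16 + 2 * Q + 2 * (P + 1) + Cu) *
      (φ₀ * Mn) := by positivity
  have a8 : 0 ≤ 4 * C * Cs * Cu * x := by positivity
  have a9 : Cu * lam * g = Cu * x := by rw [hx]; ring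
  rw [mul_assoc _ φ₀, mul_assoc _ lam, ← hx]
  nlinarith

theorem small_energy {M m b i : ℕ} {ε : ℝ} (hd : 1 ≤ d) (hSG : SGb d ε m M b) (hi : i ≤ M)
    {R B K₀ N₂ lam : ℝ} (hB : 1 ≤ B) (hK₀ : 2 ≤ K₀) (hR4 : R ≤ (b : ℝ) ^ (4 * M))
    (hloss : (b : ℝ) ^ (ε * M) ≤ B ^ (1 / 4 : ℝ)) (hN₂ : 0 ≤ N₂) (hlam : 0 ≤ lam)
    (hsg : ((b : ℝ) ^ M * N₂) ^ (2 / ((d : ℝ) + 2)) = B ^ (2 / ((d : ℝ) + 2)) * (B * lam))
    {ι : Type} {X Y : Finset ι} {p : ι → V d × ℝ} {w : ι → ℝ} {k₀ : ℤ} (hw : ∀ z ∈ X, 0 ≤ w z)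
    (hp : ∀ z ∈ X, p z ∈ closedBall (0 : V d × ℝ) R) (hwin : ∀ z ∈ X, win b M (p z).2 = k₀)
    (hY : Y ⊆ X) (hsm : ∀ z ∈ Y, ms X p w (closedBall (p z) K₀) < 1 / B ^ 6)
    (hm2 : ∀ c, ms X p w (closedBall c ((b : ℝ) ^ M)) ≤ N₂)
    (herr : (∑ z ∈ Y, w z) / (b : ℝ) ^ (m * M) ≤ 1)
    {G : ℕ → ℤ → Set (Ph d)} (hG : ∀ l k, MeasurableSet (G l k))
    (hG3 : ∀ l k, ∀ β ∈ G l k, ‖β.2‖ ≤ 3) {g' : L2 d} {x : ℝ} (hx : ‖g'‖ ≤ x) :
    En Y p w (fun z => tower b G i M g' (p z).2) ≤ (7 ^ d * lam + 1) * x ^ 2 := by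
  classical
  obtain ⟨F₃, hF₃, hF₃'⟩ := exists_cover_three d
  have hB0 : 0 < B := by linarith
  refine (hSG 0 i (Nat.zero_le _) hi ι _ p w k₀ (fun z hz => hw z (hY hz))
    (fun z hz => closedBall_subset_closedBall hR4 (hp z (hY hz))) (fun z hz => hwin z (hY hz))
    G hG hG3 (7 ^ d) (1 / B ^ 6) N₂ (by positivity) (by positivity) hN₂ (fun c => ?_)
    (fun c => (II.B.ms_mono hw hY fun _ _ h => h).trans (hm2 c))
    (fun z _ => ⟨F₃, by simpa using hF₃, fun β hβ _ => by simpa using hF₃' _ (hG3 _ _ β hβ)⟩)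
    g').trans ?_
  · by_cases h : ∃ z ∈ Y, p z ∈ closedBall c ((b : ℝ) ^ (2 * 0))
    · obtain ⟨z, hz1, hz2⟩ := h
      refine le_trans (II.B.ms_mono hw hY fun y _ hy => ?_) (hsm z hz1).le
      simp only [mul_zero, pow_zero, mem_closedBall] at hz2 hy ⊢
      linarith [dist_triangle_right (p y) (p z) c]
    · have : ms Y p w (closedBall c ((b : ℝ) ^ (2 * 0))) = 0 :=
        Finset.sum_eq_zero fun z hz =>
          absurd ⟨z, (Finset.mem_filter.1 hz).1, (Finset.mem_filter.1 hz).2⟩ h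
      rw [this]; positivity
  · refine mul_le_mul (add_le_add ?_ herr) (by gcongr) (by positivity) (by positivity)
    rw [hsg]
    calc _ ≤ B ^ (1 / 4 : ℝ) * 7 ^ d * (1 / B ^ 6) ^ ((d : ℝ) / (d + 2)) *
          (B ^ (2 / ((d : ℝ) + 2)) * (B * lam)) := by gcongr
      _ = 7 ^ d * ((B ^ (1 / 4 : ℝ) * (1 / B ^ 6) ^ ((d : ℝ) / (d + 2)) *
          B ^ (2 / ((d : ℝ) + 2))) * B) * lam := by ring
      _ ≤ 7 ^ d * (1 / B * B) * lam := by gcongr; exact small_num hd hB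
      _ = _ := by field_simp

theorem mass_le {R B : ℝ} (hR : 1 ≤ R) (hB : B ^ 2 ≤ R) (hB1 : 1 ≤ B) {ι : Type} {X Y : Finset ι}
    {p : ι → V d × ℝ} {w : ι → ℝ} (hreg : Reg R B X p w)
    (hp : ∀ z ∈ X, p z ∈ closedBall (0 : V d × ℝ) R) (hY : Y ⊆ X) :
    ∑ z ∈ Y, w z ≤ R ^ (d + 2) := by
  classical
  refine (Finset.sum_le_sum_of_subset_of_nonneg hY fun z hz _ => hreg.1 z hz).trans ?_
  have : ms X p w (closedBall 0 R) = ∑ z ∈ X, w z := by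
    unfold ms; rw [Finset.filter_true_of_mem hp]
  rw [← this, pow_succ']
  refine (hreg.2 _ _ hR).trans (mul_le_mul ?_ (prd_top_le hR)
    (zero_le_one.trans (one_le_prd _ _)) (by linarith))
  nlinarith

theorem I_le {R B Cd : ℝ} {b i M : ℕ} (hb : 1 ≤ b) (hi : i ≤ M) (hB : 1 ≤ B) (hR : 1 ≤ R)
    (hCd : 0 ≤ Cd) {W : V d × ℝ → ℝ} {r : ℝ}
    (hW : Nice W (Cd * B ^ (2 / ((d : ℝ) + 2)) / Ssc (d + 1) R ^ 2) r) (k₀ : ℤ) (H : ℤ → L2 d)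
    {x : ℝ} (hH : ∀ k, ‖H k‖ ≤ x) (A : Set (Ph d)) :
    (0 ≤ ∑ k ∈ Finset.Ico (k₀ * (b : ℤ) ^ (2 * (M - i))) ((k₀ + 1) * (b : ℤ) ^ (2 * (M - i))),
      ∫ β in A, xray W ((k - 1) * (b : ℝ) ^ (2 * i)) ((k + 2) * (b : ℝ) ^ (2 * i)) β *
        ‖co ((b : ℝ) ^ i) (k * (b : ℝ) ^ (2 * i)) (H k) β‖ ^ 2) ∧
    ∑ k ∈ Finset.Ico (k₀ * (b : ℤ) ^ (2 * (M - i))) ((k₀ + 1) * (b : ℤ) ^ (2 * (M - i))),
      ∫ β in A, xray W ((k - 1) * (b : ℝ) ^ (2 * i)) ((k + 2) * (b : ℝ) ^ (2 * i)) β *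
        ‖co ((b : ℝ) ^ i) (k * (b : ℝ) ^ (2 * i)) (H k) β‖ ^ 2 ≤
      3 * Cd * B ^ 2 * ((b : ℝ) ^ (2 * M) / (B * Ssc (d + 1) R ^ 2)) * x ^ 2 := by
  have hbi : (0 : ℝ) < (b : ℝ) ^ (2 * i) := by positivity
  have hS1 := one_le_Ssc hR (d + 1)
  have hle : ∀ k : ℤ, ((k : ℝ) - 1) * (b : ℝ) ^ (2 * i) ≤ (k + 2) * (b : ℝ) ^ (2 * i) := fun k => by
    gcongr; linarith
  refine ⟨Finset.sum_nonneg fun k _ => integral_nonneg fun β => mul_nonneg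
      (xray_nonneg (fun u => (hW.2.1 u).1) (hle k) β) (by positivity), ?_⟩
  have hq : B ^ (2 / ((d : ℝ) + 2)) ≤ B := by
    have : 2 / ((d : ℝ) + 2) ≤ 1 := by
      rw [div_le_one (by positivity)]; linarith [(Nat.cast_nonneg d : (0 : ℝ) ≤ d)]
    simpa using Real.rpow_le_rpow_of_exponent_le hB this
  calc _ ≤ ∑ k ∈ Finset.Ico (k₀ * (b : ℤ) ^ (2 * (M - i))) ((k₀ + 1) * (b : ℤ) ^ (2 * (M - i))),
        Cd * B / Ssc (d + 1) R ^ 2 * (3 * (b : ℝ) ^ (2 * i)) * x ^ 2 := by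
        refine Finset.sum_le_sum fun k _ => (int_xray_le hW (hle k) (by positivity)
          _ _ _).trans ?_
        rw [show ((k : ℝ) + 2) * (b : ℝ) ^ (2 * i) - (k - 1) * (b : ℝ) ^ (2 * i) =
          3 * (b : ℝ) ^ (2 * i) by ring]
        gcongr
        exact hH k
    _ = _ := by
        rw [Finset.sum_const, nsmul_eq_mul, ← card_Ico_win hb hi k₀]; field_simp

theorem coef_nonneg {θ a' η Cc B K₀ K N φ : ℝ} (hCc : 0 ≤ Cc) (hB : 0 < B) (hK₀ : 0 < K₀)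
    (hK : 0 < K) (hN : 0 < N) (hφ : 0 ≤ φ) : 0 ≤ coef d θ a' η Cc B K₀ K N φ := by
  have : 0 < n1 η N K₀ K := by unfold n1; positivity
  unfold coef; positivity

theorem sum_coef_le {θ a' η Cc Cs B φ : ℝ} (hCc : 0 ≤ Cc) (hB : 0 < B) (hφ : 0 ≤ φ) {kk m : ℕ}
    (hsum : ∑ c ∈ Finset.range m ×ˢ Finset.range m,
      (Cc * min (n1 η (2 ^ c.2 * (1 / B ^ 6)) (2 ^ kk) (2 ^ (kk + c.1)))
        (n1 η (2 ^ c.2 * (1 / B ^ 6)) (2 ^ kk) (2 ^ (kk + c.1)) ^ a')) ^ (1 - θ) *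
        (2 ^ c.2 * (1 / B ^ 6)) ^ (θ - 2 / ((d : ℝ) + 2)) ≤ Cs) {𝒯 : Finset (ℕ × ℕ)}
    (h𝒯 : 𝒯 ⊆ Finset.range m ×ˢ Finset.range m) :
    ∑ c ∈ 𝒯, coef d θ a' η Cc B (2 ^ kk) (2 ^ (kk + c.1)) (2 ^ c.2 / B ^ 6) φ ≤
      Cs * φ ^ (θ / 2) + 𝒯.card * (1 / B ^ 3) := by
  unfold coef
  rw [Finset.sum_add_distrib, Finset.sum_const, nsmul_eq_mul, ← Finset.sum_mul]
  gcongr
  refine le_trans (Finset.sum_le_sum_of_subset_of_nonneg h𝒯 fun c _ _ => ?_)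
    (le_trans (le_of_eq ?_) hsum)
  · have : 0 < n1 η (2 ^ c.2 / B ^ 6) (2 ^ kk) (2 ^ (kk + c.1)) := by unfold n1; positivity
    positivity
  · simp only [mul_one_div]

theorem bad_sum_le {B n x y lam : ℝ} (hB : 1 ≤ B) (hn : n ≤ Real.sqrt B) (hx0 : 0 ≤ x)
    (hx : x ≤ B ^ (1 / 4 : ℝ)) (hlam : 0 ≤ lam) (hy : y = B ^ (2 / ((d : ℝ) + 2)) * (B * lam)) :
    n * (x * (1 / B ^ 3) * B ^ ((d : ℝ) / (d + 2)) * y) ≤ lam := by
  have hB0 : 0 < B := by linarith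
  rw [hy]
  calc _ ≤ Real.sqrt B * (B ^ (1 / 4 : ℝ) * (1 / B ^ 3) * B ^ ((d : ℝ) / (d + 2)) *
        (B ^ (2 / ((d : ℝ) + 2)) * (B * lam))) := by gcongr
    _ = Real.sqrt B * (B ^ (1 / 4 : ℝ) * (1 / B ^ 3) * B ^ ((d : ℝ) / (d + 2)) *
        B ^ (2 / ((d : ℝ) + 2))) * (B * lam) := by ring
    _ ≤ 1 / B * (B * lam) := by gcongr; exact bad_num hB
    _ = lam := by field_simp

end Crest.Agent.N76.II.LP
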