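import Crest.Agent.N76.LG.Z4
import Crest.Agent.N76.II.Dens
import Crest.Agent.N76.II.Net
import Crest.Agent.N76.II.LP.Main
import Crest.Agent.N76.II.St4.Stop
import Crest.Agent.N76.II.L0.Main
import Crest.Agent.N76.II.UT.Main
import Crest.Agent.N76.II.CD
import Crest.Agent.N76.II.PhiB
import Crest.Agent.N76.II.LB

-- ▼ part N76/LG/Z5
section

/-! # Row 76, Lemma G (lattice form): `lemGZ` (helper96) -/

set_option autoImplicit false

namespace Crest.Agent.N76.LG

open Finset Function Filter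
open Crest.Agent.N76.MK

/-- polynomially bounded nonnegative functions of the loss -/
def Pb (f : ℝ → ℝ) : Prop := ∃ E : ℕ, ∀ Λ : ℝ, 2 ≤ Λ → 0 ≤ f Λ ∧ f Λ ≤ Λ ^ E

lemma Pb.id : Pb fun Λ => Λ := ⟨1, fun Λ h => ⟨by linarith, by simp⟩⟩

lemma Pb.const {c : ℝ} (hc : 0 ≤ c) : Pb fun _ => c := by
  obtain ⟨E, hE⟩ := pow_unbounded_of_one_lt c (show (1 : ℝ) < 2 by norm_num)
  exact ⟨E, fun Λ h => ⟨hc, hE.le.trans (pow_le_pow_left₀ (by norm_num) h E)⟩⟩

lemma Pb.mul {f g : ℝ → ℝ} (hf : Pb f) (hg : Pb g) : Pb fun Λ => f Λ * g Λ := by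
  obtain ⟨E, h1⟩ := hf
  obtain ⟨F, h2⟩ := hg
  refine ⟨E + F, fun Λ h => ⟨mul_nonneg (h1 Λ h).1 (h2 Λ h).1, ?_⟩⟩
  rw [pow_add]
  exact mul_le_mul (h1 Λ h).2 (h2 Λ h).2 (h2 Λ h).1 (by positivity)

lemma Pb.pow {f : ℝ → ℝ} (hf : Pb f) (n : ℕ) : Pb fun Λ => f Λ ^ n := by
  obtain ⟨E, h1⟩ := hf
  refine ⟨E * n, fun Λ h => ⟨pow_nonneg (h1 Λ h).1 n, ?_⟩⟩
  rw [pow_mul]
  exact pow_le_pow_left₀ (h1 Λ h).1 (h1 Λ h).2 n

lemma pb_k7 (k : ℕ) : Pb fun Λ => 120 * k7 k Λ := by
  have c : ∀ c : ℝ, 0 ≤ c → Pb fun _ => c := fun _ => Pb.const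
  have i := Pb.id
  have h1 : Pb (k1 k) := i.mul (((c 10 (by norm_num)).mul (i.pow 6)).pow k)
  have h2 : Pb (k2 k) := h1.mul (i.pow 2)
  have h3 : Pb (k3 k) := (i.pow 3).mul ((((c (30 * (k + 1)) (by positivity)).mul h2).mul i).pow k)
  have h4 : Pb (k4 k) := (((c 30 (by norm_num)).mul (i.pow 2)).mul h3).mul h2
  have h5 : Pb (k5 k) := ((c 130 (by norm_num)).mul (i.pow 3)).mul h2
  have h6 : Pb (k6 k) := (((((c 8 (by norm_num)).mul i).mul (h3.pow (k + 1))).mul
    ((((c 8 (by norm_num)).mul i).mul h3).mul h5)).mul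
    (h4.mul (((c 5 (by norm_num)).mul i).pow (k + 1)))).mul ((c 7 (by norm_num)).mul i)
  exact (c 120 (by norm_num)).mul (((((c 1000 (by norm_num)).mul (i.pow 3)).mul h2).mul
    ((h3.mul h4).pow 2)).mul h6)

/-- the number of dyadic scales is a small power -/
lemma exists_T {ε : ℝ} (hε : 0 < ε) : ∀ᶠ N : ℝ in atTop, ∃ T : ℕ, (T : ℝ) ≤ N ^ ε ∧
    ∀ i, i < T ↔ (2 : ℝ) ^ i ≤ N := by
  filter_upwards [(tendsto_rpow_atTop (half_pos hε)).eventually_ge_atTop (4 / ε + 1),
    eventually_ge_atTop (1 : ℝ)] with N h1 h2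
  obtain ⟨t, t1, t2⟩ := exists_nat_pow_near h2 (show (1 : ℝ) < 2 by norm_num)
  refine ⟨t + 1, ?_, fun i => ⟨fun hi => le_trans (pow_le_pow_right₀ (by norm_num) (by omega)) t1,
    fun hi => (pow_lt_pow_iff_right₀ (show (1 : ℝ) < 2 by norm_num)).1 (hi.trans_lt t2)⟩⟩
  have h3 : (t : ℝ) * Real.log 2 ≤ Real.log N := by
    rw [← Real.log_pow]; exact Real.log_le_log (by positivity) t1
  have h4 := Real.log_le_rpow_div (show 0 ≤ N by linarith) (half_pos hε)
  have h5 := Real.log_two_gt_d9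
  have h6 : 1 ≤ N ^ (ε / 2) := Real.one_le_rpow h2 (by linarith)
  have h7 : N ^ ε = N ^ (ε / 2) * N ^ (ε / 2) := by rw [← Real.rpow_add (by linarith)]; ring_nf
  have h8 : (t : ℝ) ≤ 4 / ε * N ^ (ε / 2) := by
    have : 4 / ε * N ^ (ε / 2) = 2 * (N ^ (ε / 2) / (ε / 2)) := by field_simp; norm_num
    nlinarith [Nat.cast_nonneg (α := ℝ) t]
  push_cast
  rw [h7]
  nlinarith

variable {D : Type} [Fintype D] [DecidableEq D]

lemma HypZ.mono {β ι : Type*} {k : ℕ} {i0 i1 : D} {N s κ Λ Λ' ρ₀ : ℝ} {Y : Finset (D → ℤ)}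
    {P : Finset β} {b : β → D → ℝ} {W : β → Finset (D → ℤ)} {τ : β → (D → ℤ) → ι}
    (h : HypZ k i0 i1 N s κ Λ ρ₀ Y P b W τ) (hΛ : Λ ≤ Λ') (hN : 0 < N) (hρ : 0 < ρ₀) :
    HypZ k i0 i1 N s κ Λ' ρ₀ Y P b W τ where
  ne := h.ne
  bd y hy i := (h.bd y hy i).trans (by gcongr)
  sub := h.sub
  big θ hθ := (h.big θ hθ).trans (by gcongr)
  cells ρ h1 h2 := (h.cells ρ h1 h2).trans (by gcongr)
  proj ρ h1 h2 c j := (h.proj ρ h1 h2 c j).trans (by gcongr)
  projN j := (h.projN j).trans (by gcongr)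
  labc θ hθ := (h.labc θ hθ).trans (by gcongr)
  tube θ hθ y hy y' hy' e i := (h.tube θ hθ y hy y' hy' e i).trans hΛ
  slope := h.slope
  fro v ρ h1 h2 := (h.fro v ρ h1 h2).trans (by
    have : 0 < ρ := lt_of_lt_of_le (by positivity) h1
    gcongr)

/-- **Lemma G, lattice form.** -/
theorem lemGZ (hBR : R070.CoreSpec93.BR) {k : ℕ} (hk : Fintype.card D = k + 1) (hk1 : 1 ≤ k) :
    LemGZ D k := by
  intro c κ lam hc hκ hκ1 hlam
  obtain ⟨εB, D₀, h1, h2, _, hB⟩ := BR.br_unif hBR hc hκ hκ1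
  obtain ⟨E, hE⟩ := pb_k7 k
  set ε := lam * εB / (16 * (E + 1)) with hε
  have hε0 : 0 < ε := by positivity
  obtain ⟨N₀, hN₀⟩ := eventually_atTop.1 ((exists_T hε0).and
    (((tendsto_rpow_atTop hε0).eventually_ge_atTop 2).and
    (((tendsto_rpow_atTop hlam).eventually_ge_atTop (1 / D₀)).and (eventually_ge_atTop (1 : ℝ)))))
  refine ⟨ε, N₀, hε0, ?_⟩
  intro β ι i0 i1 N s Λ j₀ Y P b W τ hi hN hs hs' _ hΛ hU h
  obtain ⟨⟨T, hT, hTN⟩, g2, g3, g4⟩ := hN₀ N hN
  have hU1 : 1 ≤ N / 2 ^ j₀ := (Real.one_le_rpow g4 hlam.le).trans hU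
  obtain ⟨j1, t1, t2⟩ := exists_nat_pow_near hU1 (show (1 : ℝ) < 2 by norm_num)
  rw [pow_succ'] at t2
  have hM : N ^ lam ≤ 7 * N ^ ε * 2 ^ j1 := by nlinarith [one_le_two_pow j1]
  refine (h.mono hΛ (by linarith) (by positivity)).false (T := T)
    ⟨hk, hk1, by linarith, g4, by linarith, by linarith, hT, hTN⟩ hi t1 t2.le hκ.le hκ1.le
    (hB s hs hs') ?_ ?_
  · rw [div_le_iff₀ (by positivity)]
    rw [div_le_iff₀ h2] at g3
    nlinarith
  · calc _ ≤ ((N ^ ε) ^ E) ^ 16 := pow_le_pow_left₀ (hE _ g2).1 (hE _ g2).2 _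
      _ = N ^ (ε * (E * 16)) := by
          rw [← pow_mul, ← Real.rpow_natCast, ← Real.rpow_mul (by linarith)]; push_cast; rfl
      _ ≤ N ^ (lam * εB) := by
          refine Real.rpow_le_rpow_of_exponent_le g4 ?_
          rw [hε, div_mul_eq_mul_div, div_le_iff₀ (by positivity)]
          nlinarith [mul_pos hlam h1]
      _ ≤ _ := by
          rw [Real.rpow_mul (by linarith)]
          exact Real.rpow_le_rpow (by positivity) hM h1.le

end Crest.Agent.N76.LG
end

-- ▼ part N76/II/AV/Cord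
section

/-! # Row 76, leaf AV: Córdoba's `L²` argument without Fourier analysis (helper98). -/

set_option autoImplicit false

open MeasureTheory Set Metric
open scoped ENNReal RealInnerProductSpace

namespace Crest.Agent.N76.II.AV

open Crest.Agent.N76.Red (V)
open Crest.Agent.N76.G

variable {d : ℕ}

lemma mp_shear (t : ℝ) :
    MeasurePreserving (fun q : V d × V d => lin (q.1, t) q.2) volume volume := by
  have h1 : MeasurePreserving (fun p : V d × V d => (id p.1, p.2 + (2 * t) • p.1))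
      (volume.prod volume) (volume.prod volume) :=
    (MeasurePreserving.id volume).skew_product (g := fun a c => c + (2 * t) • a)
      (by unfold Function.uncurry; fun_prop)
      (.of_forall fun a => map_add_right_eq_self volume _)
  have h2 := (Measure.measurePreserving_swap.comp h1).comp
    (Measure.measurePreserving_swap (μ := (volume : Measure (V d))) (ν := (volume : Measure (V d))))
  exact h2

lemma continuous_shear (t : ℝ) : Continuous fun q : V d × V d => lin (q.1, t) q.2 := by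
  unfold lin; fun_prop

lemma integral_shear (t : ℝ) {f : Ph d → ℝ} (hf : Continuous f) :
    ∫ β, f β = ∫ q : V d × V d, f (lin (q.1, t) q.2) := by
  rw [← integral_map (continuous_shear t).aemeasurable hf.aestronglyMeasurable,
    (mp_shear t).map_eq]

lemma pos_lin' (u : V d × ℝ) (ξ : V d) (t : ℝ) :
    pos t (lin u ξ) = u.1 - (2 * (t - u.2)) • ξ := by
  simp only [pos, lin, mul_sub, sub_smul]; abel

lemma abs_xray_le {h : V d × ℝ → ℝ} {Mx : ℝ} (hb : ∀ u, |h u| ≤ Mx) {t₁ t₂ : ℝ} (ht : t₁ ≤ t₂)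
    (β : Ph d) : |xray h t₁ t₂ β| ≤ Mx * (t₂ - t₁) := by
  have := intervalIntegral.norm_integral_le_of_norm_le_const (a := t₁) (b := t₂) (C := Mx)
    (f := fun t => h (pos t β, t)) fun t _ => hb _
  rwa [abs_of_nonneg (by linarith : 0 ≤ t₂ - t₁)] at this

/-- the abstract `TT*` step -/
lemma cord_gen {h : V d × ℝ → ℝ} (hh : Continuous h) {Mx ρ : ℝ} (hb : ∀ u, |h u| ≤ Mx)
    (hρ : ∀ x t, ρ < ‖x‖ → h (x, t) = 0) {κ : V d → ℝ} (hκ : Continuous κ)
    (hκ0 : ∀ ξ, 0 ≤ κ ξ) (hκi : Integrable κ) {t₁ t₂ : ℝ} (ht : t₁ ≤ t₂) {G : ℝ}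
    (hG : ∀ u : V d × ℝ, u.2 ∈ Icc t₁ t₂ → |∫ ξ, κ ξ * xray h t₁ t₂ (lin u ξ)| ≤ G) :
    Integrable (fun β : Ph d => κ β.2 * xray h t₁ t₂ β ^ 2) ∧
    ∫ β : Ph d, κ β.2 * xray h t₁ t₂ β ^ 2 ≤
      (t₂ - t₁) * (Mx * (volume (closedBall (0 : V d) ρ)).toReal * G) := by
  have hM : 0 ≤ Mx := (abs_nonneg _).trans (hb 0)
  set Φ := xray h t₁ t₂ with hΦ
  have hΦc : Continuous Φ := continuous_xray hh t₁ t₂
  have hΦb : ∀ β, |Φ β| ≤ Mx * (t₂ - t₁) := abs_xray_le hb ht
  set F : ℝ → Ph d → ℝ := fun t β => κ β.2 * Φ β * h (pos t β, t) with hF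
  have hFc : Continuous (Function.uncurry F) := by
    simp only [hF]; unfold Function.uncurry pos; fun_prop
  have hFt : ∀ t, Continuous (F t) := fun t => hFc.comp (Continuous.prodMk_right t)
  set ind : V d → ℝ := (closedBall (0 : V d) ρ).indicator fun _ => Mx with hind
  have hindi : Integrable ind :=
    (integrable_indicator_iff measurableSet_closedBall).2
      (integrableOn_const measure_closedBall_lt_top.ne)
  have hhind : ∀ x t, |h (x, t)| ≤ ind x := fun x t => by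
    by_cases hx : x ∈ closedBall (0 : V d) ρ
    · rw [hind, indicator_of_mem hx]; exact hb _
    · rw [hind, indicator_of_notMem hx, hρ x t (by simpa using hx), abs_zero]
  have hmaj : Integrable (fun q : V d × V d => ind q.1 * (κ q.2 * (Mx * (t₂ - t₁))))
      (volume.prod volume) := hindi.mul_prod (hκi.mul_const _)
  have hsh : ∀ t (q : V d × V d), F t (lin (q.1, t) q.2) =
      h (q.1, t) * (κ q.2 * Φ (lin (q.1, t) q.2)) := fun t q => by
    have := pos_lin (q.1, t) q.2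
    simp only at this
    simp only [hF, this]
    change κ q.2 * _ * _ = _
    ring
  have hbd : ∀ t (q : V d × V d), ‖F t (lin (q.1, t) q.2)‖ ≤
      ind q.1 * (κ q.2 * (Mx * (t₂ - t₁))) := fun t q => by
    rw [hsh, Real.norm_eq_abs, abs_mul, abs_mul, abs_of_nonneg (hκ0 _)]
    exact mul_le_mul (hhind _ _) (mul_le_mul_of_nonneg_left (hΦb _) (hκ0 _))
      (mul_nonneg (hκ0 _) (abs_nonneg _))
      ((abs_nonneg _).trans (hhind q.1 t))
  have hi' : ∀ t, Integrable (fun q : V d × V d => F t (lin (q.1, t) q.2)) (volume.prod volume) :=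
    fun t => hmaj.mono' ((hFt t).comp (continuous_shear t)).aestronglyMeasurable
      (.of_forall (hbd t))
  have hi : ∀ t, Integrable (F t) := fun t =>
    ((mp_shear t).integrable_comp (hFt t).aestronglyMeasurable).1 (hi' t)
  have hjoint : Integrable (Function.uncurry F) ((volume.restrict (uIoc t₁ t₂)).prod volume) := by
    rw [integrable_prod_iff hFc.aestronglyMeasurable]
    refine ⟨.of_forall hi, ?_⟩
    have : IsFiniteMeasure (volume.restrict (uIoc t₁ t₂)) :=
      ⟨by rw [Measure.restrict_apply_univ, uIoc_of_le ht]; exact measure_Ioc_lt_top⟩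
    refine Integrable.of_bound hFc.aestronglyMeasurable.norm.integral_prod_right'
      (∫ q : V d × V d, ind q.1 * (κ q.2 * (Mx * (t₂ - t₁)))) (.of_forall fun t => ?_)
    rw [Real.norm_of_nonneg (integral_nonneg fun _ => norm_nonneg _)]
    change ∫ β, ‖F t β‖ ≤ _
    rw [integral_shear t (hFt t).norm]
    exact integral_mono (hi' t).norm hmaj (hbd t)
  have hid : ∀ β : Ph d, ∫ t in t₁..t₂, F t β = κ β.2 * Φ β ^ 2 := fun β => by
    simp only [hF]
    rw [intervalIntegral.integral_const_mul]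
    change κ β.2 * Φ β * Φ β = _
    ring
  constructor
  · have := hjoint.integral_prod_right
    refine this.congr (.of_forall fun β => ?_)
    beta_reduce
    rw [← hid β, intervalIntegral.integral_of_le ht, uIoc_of_le ht]
    rfl
  · simp only [← hid]
    rw [← intervalIntegral_integral_swap hjoint]
    have hle : ∀ t ∈ uIoc t₁ t₂, ‖∫ β, F t β‖ ≤
        Mx * (volume (closedBall (0 : V d) ρ)).toReal * G := fun t htt => by
      rw [uIoc_of_le ht] at htt
      rw [integral_shear t (hFt t), Measure.volume_eq_prod, integral_prod _ (hi' t)]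
      have e : ∫ x, ind x * G = Mx * (volume (closedBall (0 : V d) ρ)).toReal * G := by
        rw [integral_mul_const, hind, integral_indicator measurableSet_closedBall,
          setIntegral_const, smul_eq_mul, Measure.real, mul_comm _ Mx]
      rw [← e]
      refine norm_integral_le_of_norm_le (hindi.mul_const G) (.of_forall fun x => ?_)
      have hs' : ∀ ξ, F t (lin (x, t) ξ) = h (x, t) * (κ ξ * Φ (lin (x, t) ξ)) :=
        fun ξ => hsh t (x, ξ)
      simp only [hs']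
      rw [integral_const_mul, Real.norm_eq_abs, abs_mul]
      exact mul_le_mul (hhind _ _) (hG (x, t) (Ioc_subset_Icc_self htt)) (abs_nonneg _)
        ((abs_nonneg _).trans (hhind x t))
    have := intervalIntegral.norm_integral_le_of_norm_le_const hle
    rw [abs_of_nonneg (by linarith : 0 ≤ t₂ - t₁), mul_comm] at this
    exact (le_abs_self _).trans this

/-- the direction weight -/
noncomputable def kap (K : ℝ) (ζ ξ : V d) : ℝ := Real.exp (-K * ‖ξ - ζ‖)

/-- `∫ exp (-‖x‖)` -/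
noncomputable def II0 (d : ℕ) : ℝ := ∫ x : V d, Real.exp (-‖x‖)

lemma II0_nonneg (d : ℕ) : 0 ≤ II0 d := integral_nonneg fun _ => (Real.exp_pos _).le

lemma continuous_kap (K : ℝ) (ζ : V d) : Continuous (kap K ζ) := by
  unfold kap; fun_prop

lemma integral_kap {K : ℝ} (hK : 0 < K) (ζ : V d) :
    Integrable (kap K ζ) ∧ ∫ ξ, kap K ζ ξ = II0 d / K ^ d := by
  have h := B.integral_exp_neg_dist (volume : Measure (V d)) ζ (l := 1 / K) (by positivity)
  have e : (fun u : V d => Real.exp (-(dist u ζ / (1 / K)))) = kap K ζ := by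
    funext u
    rw [kap, dist_eq_norm]
    congr 1
    field_simp
  rw [e] at h
  refine ⟨h.1, ?_⟩
  rw [h.2, finrank_euclideanSpace_fin, II0, one_div, inv_pow]
  ring

lemma abs_exp_sub_le {a b m : ℝ} (hm : |a - b| ≤ m) :
    |Real.exp (-a) - Real.exp (-b)| ≤ min 1 m * (Real.exp (-a) + Real.exp (-b)) := by
  have ha := Real.exp_pos (-a)
  have hb := Real.exp_pos (-b)
  have key : ∀ x y : ℝ, |x - y| ≤ m → Real.exp (-x) - Real.exp (-y) ≤
      min 1 m * (Real.exp (-x) + Real.exp (-y)) := fun x y hxy => by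
    have hx := Real.exp_pos (-x)
    have hy := Real.exp_pos (-y)
    have h1 : Real.exp (-y) = Real.exp (-x) * Real.exp (x - y) := by
      rw [← Real.exp_add]; congr 1; ring
    have h2 := Real.add_one_le_exp (x - y)
    have h3 := neg_abs_le (x - y)
    have h4 : 0 ≤ m := (abs_nonneg _).trans hxy
    rcases le_total 1 m with h | h
    · rw [min_eq_left h]; linarith
    · rw [min_eq_right h]; nlinarith
  rw [abs_le]
  constructor
  · have := key b a (by rwa [abs_sub_comm])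
    linarith
  · exact key a b hm

lemma integral_kap_sub_le {K : ℝ} (hK : 0 < K) (ζ v : V d) :
    ∫ ξ, |kap K ζ ξ - kap K ζ (ξ + v)| ≤ min 1 (K * ‖v‖) * (2 * II0 d / K ^ d) := by
  have h1 := integral_kap hK ζ
  have h2 : Integrable fun ξ => kap K ζ (ξ + v) := h1.1.comp_add_right v
  calc _ ≤ ∫ ξ, min 1 (K * ‖v‖) * (kap K ζ ξ + kap K ζ (ξ + v)) := by
        refine integral_mono (h1.1.sub h2).abs ((h1.1.add h2).const_mul _) fun ξ => ?_
        simp only [kap, neg_mul]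
        refine abs_exp_sub_le ?_
        rw [← mul_sub, abs_mul, abs_of_pos hK]
        refine mul_le_mul_of_nonneg_left ((abs_norm_sub_norm_le _ _).trans (le_of_eq ?_)) hK.le
        rw [show ξ - ζ - (ξ + v - ζ) = -v by abel, norm_neg]
    _ = _ := by
        rw [integral_const_mul, integral_add h1.1 h2, integral_add_right_eq_self (kap K ζ) v, h1.2]
        ring

/-- the bracket -/
lemma bracket_le {g : V d × ℝ → ℝ} (hg : Continuous g) {Mx : ℝ} (h0 : ∀ u, 0 ≤ g u ∧ g u ≤ Mx)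
    {K : ℝ} (hK : 0 < K) (ζ e x : V d) (t' : ℝ) {s : ℝ} (hs : s ≠ 0) :
    |∫ ξ, kap K ζ ξ * (g (x - (2 * s) • ξ, t') - g (x - (2 * s) • ξ + e, t'))| ≤
      Mx * (min 1 (K * (‖e‖ / (2 * |s|))) * (2 * II0 d / K ^ d)) := by
  have hM : 0 ≤ Mx := (h0 0).1.trans (h0 0).2
  have h1 := integral_kap hK ζ
  set v : V d := (2 * s)⁻¹ • e with hv
  have hb : ∀ (k : V d → ℝ) (y : V d), Integrable k →
      Integrable fun ξ => k ξ * g (x - (2 * s) • ξ + y, t') := fun k y hk =>
    hk.mul_bdd (c := Mx) (Continuous.aestronglyMeasurable (by fun_prop))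
      (.of_forall fun ξ => by rw [Real.norm_of_nonneg (h0 _).1]; exact (h0 _).2)
  have hb0 : ∀ (k : V d → ℝ), Integrable k →
      Integrable fun ξ => k ξ * g (x - (2 * s) • ξ, t') := fun k hk => by
    simpa using hb k 0 hk
  have h2 : Integrable fun ξ => kap K ζ (ξ + v) := h1.1.comp_add_right v
  have e1 : ∫ ξ, kap K ζ ξ * g (x - (2 * s) • ξ + e, t') =
      ∫ ξ, kap K ζ (ξ + v) * g (x - (2 * s) • ξ, t') := by
    rw [← integral_add_right_eq_self
      (fun ξ => kap K ζ ξ * g (x - (2 * s) • ξ + e, t')) v]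
    refine integral_congr_ae (.of_forall fun ξ => ?_)
    have : x - (2 * s) • (ξ + v) + e = x - (2 * s) • ξ := by
      rw [smul_add, hv, smul_inv_smul₀ (by simpa using hs)]; abel
    simp only [this]
  have e2 : ‖v‖ = ‖e‖ / (2 * |s|) := by
    rw [hv, norm_smul, norm_inv, Real.norm_eq_abs, abs_mul, abs_two, div_eq_inv_mul]
  simp only [mul_sub]
  rw [integral_sub (hb0 _ h1.1) (hb _ e h1.1), e1, ← integral_sub (hb0 _ h1.1) (hb0 _ h2), ← e2]
  refine le_trans ?_ (mul_le_mul_of_nonneg_left (integral_kap_sub_le hK ζ v) hM)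
  rw [← integral_const_mul]
  refine (abs_integral_le_integral_abs).trans (integral_mono
    ((hb0 _ h1.1).sub (hb0 _ h2)).abs ((h1.1.sub h2).abs.const_mul _) fun ξ => ?_)
  simp only
  rw [← sub_mul, abs_mul, abs_of_nonneg (h0 _).1, mul_comm Mx]
  exact mul_le_mul_of_nonneg_left (h0 _).2 (abs_nonneg _)

lemma xray_shift_sub {g : V d × ℝ → ℝ} (hg : Continuous g) (t₁ t₂ : ℝ) (e : V d) (β : Ph d) :
    xray g t₁ t₂ β - xray g t₁ t₂ (β + (e, 0)) =
      xray (fun u => g u - g (u.1 + e, u.2)) t₁ t₂ β := by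
  have e1 : ∀ t, pos t (β + (e, 0)) = pos t β + e := fun t => by
    simp only [pos, Prod.fst_add, Prod.snd_add, add_zero]; abel
  rw [xray, xray, xray, ← intervalIntegral.integral_sub
    ((continuous_line hg β).intervalIntegrable _ _)
    ((continuous_line hg _).intervalIntegrable _ _)]
  simp only [e1]

/-- **Córdoba** -/
lemma cordoba {g : V d × ℝ → ℝ} (hg : Continuous g) {Mx ρ : ℝ} (h0 : ∀ u, 0 ≤ g u ∧ g u ≤ Mx)
    (hρ : ∀ x t, ρ ≤ ‖x‖ → g (x, t) = 0) {K : ℝ} (hK : 0 < K) (ζ e : V d) {t₁ l a ρ' : ℝ}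
    (hl : 0 < l) (ha : 0 < a) (he : K * ‖e‖ ≤ 2 * a) (hρ' : ρ + ‖e‖ ≤ ρ') :
    ∫⁻ β : Ph d, ENNReal.ofReal (kap K ζ β.2 *
        (xray g t₁ (t₁ + l) β - xray g t₁ (t₁ + l) (β + (e, 0))) ^ 2) ≤
      ENNReal.ofReal (l * (Mx * (volume (closedBall (0 : V d) ρ')).toReal *
        (Mx * (2 * II0 d / K ^ d) * (3 * Real.sqrt (a * l))))) := by
  have hM : 0 ≤ Mx := (h0 0).1.trans (h0 0).2
  have hI := II0_nonneg d
  set h : V d × ℝ → ℝ := fun u => g u - g (u.1 + e, u.2) with hh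
  have hhc : Continuous h := by simp only [hh]; fun_prop
  have hhb : ∀ u, |h u| ≤ Mx := fun u => by
    rw [abs_le]; constructor <;> simp only [hh] <;> linarith [h0 u, h0 (u.1 + e, u.2)]
  have hhρ : ∀ x t, ρ' < ‖x‖ → h (x, t) = 0 := fun x t hx => by
    have h1 : ‖x‖ ≤ ‖x + e‖ + ‖e‖ := by
      simpa using norm_sub_le (x + e) e
    simp only [hh]
    rw [hρ x t (by linarith [norm_nonneg e]), hρ _ t (by linarith), sub_zero]
  have h1 := integral_kap hK ζ
  have ht : t₁ ≤ t₁ + l := by linarith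
  set c := Mx * (2 * II0 d / K ^ d) with hc
  have hc0 : 0 ≤ c := by positivity
  set δ := Real.sqrt (a * l) with hδ
  have hδ0 : 0 < δ := Real.sqrt_pos.2 (by positivity)
  have hδ2 : δ * δ = a * l := Real.mul_self_sqrt (by positivity)
  have key := cord_gen hhc hhb hhρ (continuous_kap K ζ) (fun _ => (Real.exp_pos _).le) h1.1 ht
    (G := c * (3 * δ)) (fun u hu => by
      set F : ℝ → V d → ℝ := fun t' ξ => kap K ζ ξ * h (u.1 - (2 * (t' - u.2)) • ξ, t') with hF
      have hFc : Continuous (Function.uncurry F) := by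
        have := continuous_kap K ζ
        simp only [hF]; unfold Function.uncurry; fun_prop
      have : IsFiniteMeasure (volume.restrict (uIoc t₁ (t₁ + l))) :=
        ⟨by rw [Measure.restrict_apply_univ, uIoc_of_le ht]; exact measure_Ioc_lt_top⟩
      have hFi : Integrable (Function.uncurry F)
          ((volume.restrict (uIoc t₁ (t₁ + l))).prod volume) := by
        refine ((integrable_const Mx).mul_prod h1.1).mono' hFc.aestronglyMeasurable
          (.of_forall fun q => ?_)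
        simp only [hF, Function.uncurry]
        rw [Real.norm_eq_abs, abs_mul, abs_of_nonneg (show 0 ≤ kap K ζ q.2 from (Real.exp_pos _).le),
          mul_comm]
        exact mul_le_mul_of_nonneg_right (hhb _) (Real.exp_pos _).le
      have e1 : ∀ ξ, kap K ζ ξ * xray h t₁ (t₁ + l) (lin u ξ) = ∫ t' in t₁..(t₁ + l), F t' ξ :=
        fun ξ => by
          simp only [hF, xray, pos_lin']
          rw [intervalIntegral.integral_const_mul]
      simp only [e1]
      rw [← intervalIntegral_integral_swap hFi, intervalIntegral.integral_of_le ht]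
      set m : ℝ → ℝ := fun t' => c * ((closedBall u.2 δ).indicator (fun _ => 1) t' + a / δ) with hm
      have hi1 : Integrable ((closedBall u.2 δ).indicator fun _ => (1 : ℝ)) :=
        (integrable_indicator_iff measurableSet_closedBall).2
          (integrableOn_const measure_closedBall_lt_top.ne)
      have hi2 : IntegrableOn (fun _ : ℝ => a / δ) (Ioc t₁ (t₁ + l)) :=
        integrableOn_const measure_Ioc_lt_top.ne
      have hmi : IntegrableOn m (Ioc t₁ (t₁ + l)) := (hi1.integrableOn.add hi2).const_mul c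
      have hne : ∀ᵐ t' ∂(volume.restrict (Ioc t₁ (t₁ + l))), t' ≠ u.2 :=
        ae_restrict_of_ae (by simp [ae_iff])
      rw [← Real.norm_eq_abs]
      refine (norm_integral_le_of_norm_le hmi ?_).trans ?_
      · filter_upwards [hne] with t' ht'
        have hs : t' - u.2 ≠ 0 := sub_ne_zero.2 ht'
        have := bracket_le hg h0 hK ζ e u.1 t' hs
        refine le_trans this ?_
        simp only [hm, hc]
        rw [mul_comm (min _ _), ← mul_assoc]
        refine mul_le_mul_of_nonneg_left ?_ hc0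
        by_cases hb : t' ∈ closedBall u.2 δ
        · rw [indicator_of_mem hb]
          have : 0 ≤ a / δ := by positivity
          linarith [min_le_left 1 (K * (‖e‖ / (2 * |t' - u.2|)))]
        · rw [indicator_of_notMem hb, zero_add]
          refine (min_le_right _ _).trans ?_
          rw [mem_closedBall, Real.dist_eq, not_le] at hb
          rw [← mul_div_assoc, div_le_div_iff₀ (by linarith) hδ0]
          nlinarith [mul_nonneg hK.le (norm_nonneg e)]
      · simp only [hm]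
        rw [integral_const_mul, integral_add hi1.integrableOn hi2]
        refine mul_le_mul_of_nonneg_left ?_ hc0
        have a1 : ∫ t' in Ioc t₁ (t₁ + l), (closedBall u.2 δ).indicator (fun _ => (1 : ℝ)) t' ≤
            2 * δ := by
          refine (setIntegral_le_integral hi1 (.of_forall fun t' =>
            indicator_nonneg (fun _ _ => zero_le_one) _)).trans (le_of_eq ?_)
          rw [integral_indicator measurableSet_closedBall, setIntegral_const, Measure.real,
            Real.volume_closedBall, ENNReal.toReal_ofReal (by positivity), smul_eq_mul, mul_one]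
        have a2 : ∫ _ in Ioc t₁ (t₁ + l), a / δ = δ := by
          rw [setIntegral_const, Measure.real, Real.volume_Ioc,
            ENNReal.toReal_ofReal (by linarith), smul_eq_mul]
          field_simp
          nlinarith
        linarith)
  simp only [xray_shift_sub hg]
  rw [← ofReal_integral_eq_lintegral_ofReal key.1
    (.of_forall fun β => mul_nonneg (Real.exp_pos _).le (sq_nonneg _))]
  refine ENNReal.ofReal_le_ofReal (key.2.trans (le_of_eq ?_))
  ring

end Crest.Agent.N76.II.AV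
end

-- ▼ part N76/II/AV/Good
section

/-! # Row 76, leaf AV: averaging over parallel lines, nets and covers (helper98). -/

set_option autoImplicit false

open MeasureTheory Set Metric
open scoped ENNReal RealInnerProductSpace

namespace Crest.Agent.N76.II.AV

open Crest.Agent.N76.Red (V)
open Crest.Agent.N76.G

variable {d : ℕ}

lemma pos_shift (t : ℝ) (β : Ph d) (e : V d) : pos t (β + (e, 0)) = pos t β + e := by
  simp only [pos, Prod.fst_add, Prod.snd_add, add_zero]; abel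

lemma ofReal_xray {W : V d × ℝ → ℝ} (hW : Continuous W) (h0 : ∀ u, 0 ≤ W u) {t₁ t₂ : ℝ}
    (ht : t₁ ≤ t₂) (β : Ph d) :
    ENNReal.ofReal (xray W t₁ t₂ β) = ∫⁻ t in Ioc t₁ t₂, ENNReal.ofReal (W (pos t β, t)) := by
  rw [xray, intervalIntegral.integral_of_le ht, ofReal_integral_eq_lintegral_ofReal
    ((continuous_line hW β).integrableOn_Icc.mono_set Ioc_subset_Icc_self)
    (.of_forall fun _ => h0 _)]

lemma continuous_xray_shift {W : V d × ℝ → ℝ} (hW : Continuous W) (t₁ t₂ : ℝ) (β : Ph d) :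
    Continuous fun e : V d => xray W t₁ t₂ (β + (e, 0)) :=
  (continuous_xray hW t₁ t₂).comp (by fun_prop)

/-- the average over parallel lines is dominated by the line integral of the ball average -/
lemma avg_le {W : V d × ℝ → ℝ} (hW : Continuous W) (h0 : ∀ u, 0 ≤ W u) {r' t₁ t₂ : ℝ}
    (hr : 0 < r') (ht : t₁ ≤ t₂) (β : Ph d) (hβ : ‖β.2‖ ≤ 3) :
    ∫ e in closedBall (0 : V d) (r' / 2), xray W t₁ t₂ (β + (e, 0)) ≤
      6 * r' ^ d * xray (bavg W r') (t₁ - r') (t₂ + r') β := by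
  set H : ℝ → ℝ≥0∞ := fun σ => ∫⁻ e in closedBall (0 : V d) (r' / 2),
    ENNReal.ofReal (W (pos σ β + e, σ)) with hH
  have hjm : Measurable fun q : ℝ × V d => ENNReal.ofReal (W (pos q.1 β + q.2, q.1)) := by
    refine ENNReal.measurable_ofReal.comp (Continuous.measurable ?_)
    unfold pos; fun_prop
  have hHm : Measurable H := hjm.lintegral_prod_right'
  have hWm : Measurable fun u => ENNReal.ofReal (W u) :=
    ENNReal.measurable_ofReal.comp hW.measurable
  -- step 1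
  have s1 : ENNReal.ofReal (∫ e in closedBall (0 : V d) (r' / 2), xray W t₁ t₂ (β + (e, 0))) =
      ∫⁻ σ in Ioc t₁ t₂, H σ := by
    rw [ofReal_integral_eq_lintegral_ofReal
      ((continuous_xray_shift hW t₁ t₂ β).continuousOn.integrableOn_compact
        (isCompact_closedBall _ _)) (.of_forall fun _ => xray_nonneg h0 ht _)]
    simp only [ofReal_xray hW h0 ht, pos_shift]
    exact (lintegral_lintegral_swap hjm.aemeasurable).symm
  -- step 2
  have s2 : ∀ t, ∫⁻ σ in closedBall t (r' / 12), H σ ≤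
      ENNReal.ofReal (r' ^ (d + 1) * bavg W r' (pos t β, t)) := fun t => by
    rw [bavg, mul_div_cancel₀ _ (by positivity), ofReal_integral_eq_lintegral_ofReal
      (hW.continuousOn.integrableOn_compact (isCompact_closedBall _ _))
      (.of_forall fun _ => h0 _), ← lintegral_indicator measurableSet_closedBall,
      ← lintegral_indicator measurableSet_closedBall, Measure.volume_eq_prod,
      lintegral_prod_symm _ (hWm.indicator measurableSet_closedBall).aemeasurable]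
    refine lintegral_mono fun σ => ?_
    by_cases hσ : σ ∈ closedBall t (r' / 12)
    swap
    · rw [indicator_of_notMem hσ]; exact zero_le
    rw [indicator_of_mem hσ, ← lintegral_add_left_eq_self _ (pos σ β), hH]
    simp only
    rw [← lintegral_indicator measurableSet_closedBall]
    refine lintegral_mono fun e => ?_
    by_cases he : e ∈ closedBall (0 : V d) (r' / 2)
    swap
    · rw [indicator_of_notMem he]; exact zero_le
    rw [indicator_of_mem he, indicator_of_mem]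
    rw [mem_closedBall, Real.dist_eq] at hσ
    rw [mem_closedBall, dist_zero_right] at he
    rw [mem_closedBall, Prod.dist_eq, max_le_iff, Real.dist_eq, dist_eq_norm]
    refine ⟨?_, by simp only; linarith⟩
    have e1 : pos σ β + e - pos t β = e - (2 * (σ - t)) • β.2 := by
      simp only [pos, mul_sub, sub_smul]; abel
    simp only
    rw [e1]
    refine (norm_sub_le _ _).trans ?_
    rw [norm_smul, Real.norm_eq_abs, abs_mul, abs_two]
    nlinarith [abs_nonneg (σ - t), norm_nonneg β.2]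
  -- step 3
  have s3 : ENNReal.ofReal (r' / 6) * ∫⁻ σ in Ioc t₁ t₂, H σ ≤
      ∫⁻ t in Ioc (t₁ - r') (t₂ + r'), ∫⁻ σ in closedBall t (r' / 12), H σ := by
    have hm : Measurable fun q : ℝ × ℝ => (closedBall q.1 (r' / 12)).indicator H q.2 := by
      have : (fun q : ℝ × ℝ => (closedBall q.1 (r' / 12)).indicator H q.2) =
          {q : ℝ × ℝ | dist q.2 q.1 ≤ r' / 12}.indicator fun q => H q.2 := by
        funext q; simp [indicator]
      rw [this]
      exact (hHm.comp measurable_snd).indicator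
        (isClosed_le (by fun_prop) continuous_const).measurableSet
    simp only [← lintegral_indicator measurableSet_closedBall]
    rw [lintegral_lintegral_swap (f := fun t σ => (closedBall t (r' / 12)).indicator H σ)
      hm.aemeasurable, ← lintegral_const_mul _ hHm,
      ← lintegral_indicator measurableSet_Ioc]
    refine lintegral_mono fun σ => ?_
    by_cases hσ : σ ∈ Ioc t₁ t₂
    swap
    · rw [indicator_of_notMem hσ]; exact zero_le
    rw [indicator_of_mem hσ]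
    have e1 : (fun t => (closedBall t (r' / 12)).indicator H σ) =
        (closedBall σ (r' / 12)).indicator fun _ => H σ := by
      funext t; simp [indicator, dist_comm]
    rw [e1, lintegral_indicator measurableSet_closedBall, setLIntegral_const,
      Measure.restrict_apply measurableSet_closedBall, inter_eq_left.2, Real.volume_closedBall,
      mul_comm]
    · exact le_of_eq (by congr 2; ring)
    · intro t htt
      rw [mem_closedBall, Real.dist_eq, abs_le] at htt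
      constructor <;> linarith [hσ.1, hσ.2, htt.1, htt.2]
  have ht' : t₁ - r' ≤ t₂ + r' := by linarith
  have hb0 : ∀ u, 0 ≤ bavg W r' u := bavg_nonneg h0 hr.le
  have s4 : ∫⁻ t in Ioc (t₁ - r') (t₂ + r'), ENNReal.ofReal (r' ^ (d + 1) * bavg W r' (pos t β, t)) =
      ENNReal.ofReal (r' ^ (d + 1) * xray (bavg W r') (t₁ - r') (t₂ + r') β) := by
    rw [ENNReal.ofReal_mul (by positivity), ofReal_xray (continuous_bavg hW r') hb0 ht',
      ← lintegral_const_mul' _ _ ENNReal.ofReal_ne_top]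
    simp only [ENNReal.ofReal_mul (show 0 ≤ r' ^ (d + 1) by positivity)]
  have hx0 := xray_nonneg hb0 ht' β
  have s5 := s3.trans ((lintegral_mono fun t => s2 t).trans s4.le)
  rw [← s1, ← ENNReal.ofReal_mul (by positivity), ENNReal.ofReal_le_ofReal_iff (by positivity),
    pow_succ] at s5
  nlinarith

/-- a separated net of a bounded set of directions -/
lemma exists_sep_net (Θ : Set (V d)) (hΘ : ∀ ξ ∈ Θ, ‖ξ‖ ≤ 3) {δ : ℝ} (hδ : 0 < δ) :
    ∃ F : Finset (V d), (∀ y ∈ F, y ∈ Θ) ∧ (∀ c ∈ F, ∀ c' ∈ F, c ≠ c' → δ ≤ dist c c') ∧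
      ∀ ξ ∈ Θ, ∃ ζ ∈ F, ‖ξ - ζ‖ ≤ δ := by
  classical
  set P : ℕ → Prop := fun k => ∃ Y : Finset (V d), (∀ y ∈ Y, y ∈ Θ) ∧
    (∀ c ∈ Y, ∀ c' ∈ Y, c ≠ c' → δ ≤ dist c c') ∧ Y.card = k with hP
  obtain ⟨B, hB⟩ := exists_nat_ge ((2 * 3 / δ + 1) ^ d)
  have hle : ∀ k, P k → k ≤ B := by
    rintro k ⟨Y, h1, h2, rfl⟩
    have := card_le_of_sep_sp Y id 0 (by norm_num : (0 : ℝ) ≤ 3) hδ
      (fun c hc => by simpa using hΘ c (h1 c hc)) h2
    exact_mod_cast this.trans hB
  have h0 : P 0 := ⟨∅, by simp, by simp, rfl⟩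
  obtain ⟨Y, h1, h2, h3⟩ : P (Nat.findGreatest P B) := Nat.findGreatest_spec (Nat.zero_le _) h0
  refine ⟨Y, h1, h2, fun ξ hξ => ?_⟩
  by_contra hcon
  push Not at hcon
  have hxY : ξ ∉ Y := fun h => by have := hcon ξ h; simp at this; linarith
  have hP' : P (Y.card + 1) := by
    refine ⟨insert ξ Y, ?_, ?_, Finset.card_insert_of_notMem hxY⟩
    · intro y hy
      rcases Finset.mem_insert.1 hy with rfl | hy
      · exact hξ
      · exact h1 y hy
    · intro c hc c' hc' hne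
      rcases Finset.mem_insert.1 hc with e1 | e1
      · rcases Finset.mem_insert.1 hc' with e2 | e2
        · exact absurd (e1.trans e2.symm) hne
        · rw [dist_eq_norm, e1]; exact (hcon c' e2).le
      · rcases Finset.mem_insert.1 hc' with e2 | e2
        · rw [dist_comm, dist_eq_norm, e2]; exact (hcon c e1).le
        · exact h2 c e1 c' e2 hne
  have := Nat.le_findGreatest (hle _ hP') hP'
  omega

/-- disjoint balls -/
lemma card_mul_le {α ι : Type*} [PseudoMetricSpace α] [MeasurableSpace α] [OpensMeasurableSpace α]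
    (μ : Measure α) (F : Finset ι) (f : ι → α) {δ : ℝ}
    (hF : ∀ c ∈ F, ∀ c' ∈ F, c ≠ c' → 2 * δ ≤ dist (f c) (f c')) {g : α → ℝ≥0∞} {m : ℝ≥0∞}
    (hg : ∀ c ∈ F, m ≤ ∫⁻ x in ball (f c) δ, g x ∂μ) {U : Set α} (hU : ∀ c ∈ F, ball (f c) δ ⊆ U) :
    F.card * m ≤ ∫⁻ x in U, g x ∂μ := by
  calc (F.card : ℝ≥0∞) * m = ∑ _c ∈ F, m := by simp
    _ ≤ ∑ c ∈ F, ∫⁻ x in ball (f c) δ, g x ∂μ := Finset.sum_le_sum hg
    _ = ∫⁻ x in ⋃ c ∈ F, ball (f c) δ, g x ∂μ := by
        rw [lintegral_biUnion_finset (fun c hc c' hc' hne => ball_disjoint_ball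
          (by linarith [hF c hc c' hc' hne])) fun _ _ => measurableSet_ball]
    _ ≤ _ := lintegral_mono_set (iUnion₂_subset hU)

/-- points through which many lines of a small set pass are covered by few balls -/
lemma card_le_of_rich {S : Set (Ph d)} (hS : MeasurableSet S) {ι : Type*} (T : Finset ι)
    (p : ι → V d × ℝ) {η t₁ t₂ : ℝ} {m : ℝ≥0∞}
    (hT : ∀ c ∈ T, ∀ c' ∈ T, c ≠ c' → 2 * η ≤ dist (p c) (p c'))
    (ht : ∀ c ∈ T, t₁ + η ≤ (p c).2 ∧ (p c).2 + η ≤ t₂)
    (hm : ∀ c ∈ T, ∀ u ∈ ball (p c) η, m ≤ volume {ξ : V d | lin u ξ ∈ S}) :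
    T.card * (m * volume (ball (0 : V d × ℝ) η)) ≤ ENNReal.ofReal (t₂ - t₁) * volume S := by
  have hc : Continuous fun q : (V d × ℝ) × V d => lin q.1 q.2 := by unfold lin; fun_prop
  have hgm : Measurable fun u : V d × ℝ => volume {ξ : V d | lin u ξ ∈ S} :=
    measurable_measure_prodMk_left (hc.measurable hS)
  refine (card_mul_le volume T p hT (g := fun u => volume {ξ : V d | lin u ξ ∈ S})
    (U := univ ×ˢ Icc t₁ t₂) (fun c hc => ?_) (fun c hc u hu => ?_)).trans (le_of_eq ?_)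
  · rw [← Measure.addHaar_ball_center volume (p c) η, ← setLIntegral_const]
    exact setLIntegral_mono' measurableSet_ball (hm c hc)
  · have h1 : dist u.2 (p c).2 < η := (le_max_right _ _).trans_lt (mem_ball.1 hu)
    rw [Real.dist_eq, abs_lt] at h1
    exact ⟨mem_univ _, by linarith [(ht c hc).1], by linarith [(ht c hc).2]⟩
  · rw [Measure.volume_eq_prod, ← Measure.prod_restrict, Measure.restrict_univ,
      lintegral_prod_symm _ hgm.aemeasurable]
    have : ∀ t, ∫⁻ x : V d, volume {ξ : V d | lin (x, t) ξ ∈ S} = volume S := fun t => by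
      rw [← (mp_shear t).measure_preimage hS.nullMeasurableSet, Measure.volume_eq_prod,
        Measure.prod_apply ((continuous_shear t).measurable hS)]
      rfl
    simp only [this]
    rw [setLIntegral_const, Real.volume_Icc, mul_comm]

end Crest.Agent.N76.II.AV
end

-- ▼ part N76/II/AV/Bad
section

/-! # Row 76, leaf AV: the set of lines with a large oscillation is small (helper98). -/

set_option autoImplicit false

open MeasureTheory Set Metric
open scoped ENNReal RealInnerProductSpace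

namespace Crest.Agent.N76.II.AV

open Crest.Agent.N76.Red (V)
open Crest.Agent.N76.G

variable {d : ℕ}

/-- a continuous cutoff -/
noncomputable def cut (ρ : ℝ) (x : V d) : ℝ := max 0 (min 1 (2 - ‖x‖ / ρ))

lemma continuous_cut (ρ : ℝ) : Continuous (cut ρ : V d → ℝ) := by
  unfold cut; fun_prop

lemma cut_nonneg (ρ : ℝ) (x : V d) : 0 ≤ cut ρ x := le_max_left _ _

lemma cut_le_one (ρ : ℝ) (x : V d) : cut ρ x ≤ 1 := max_le zero_le_one (min_le_left _ _)

lemma cut_eq_one {ρ : ℝ} (hρ : 0 < ρ) {x : V d} (hx : ‖x‖ ≤ ρ) : cut ρ x = 1 := by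
  have : ‖x‖ / ρ ≤ 1 := (div_le_one hρ).2 hx
  rw [cut, min_eq_left (by linarith), max_eq_right zero_le_one]

lemma cut_eq_zero {ρ : ℝ} (hρ : 0 < ρ) {x : V d} (hx : 2 * ρ ≤ ‖x‖) : cut ρ x = 0 := by
  have : 2 ≤ ‖x‖ / ρ := (le_div_iff₀ hρ).2 hx
  rw [cut, max_eq_left ((min_le_right _ _).trans (by linarith))]

/-- truncated weights -/
noncomputable def trn (W : V d → V d × ℝ → ℝ) (ρ : ℝ) (ζ : V d) (u : V d × ℝ) : ℝ :=
  W ζ u * cut ρ u.1

lemma continuous_trn {W : V d → V d × ℝ → ℝ} {ζ : V d} (hW : Continuous (W ζ)) (ρ : ℝ) :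
    Continuous (trn W ρ ζ) := hW.mul ((continuous_cut ρ).comp continuous_fst)

lemma xray_trn {W : V d → V d × ℝ → ℝ} {ρ : ℝ} (hρ : 0 < ρ) (ζ : V d) {t₁ t₂ : ℝ} (ht : t₁ ≤ t₂)
    {β : Ph d} (hβ : ∀ t ∈ Icc t₁ t₂, ‖pos t β‖ ≤ ρ) :
    xray (trn W ρ ζ) t₁ t₂ β = xray (W ζ) t₁ t₂ β := by
  refine intervalIntegral.integral_congr fun t htt => ?_
  rw [uIcc_of_le ht] at htt
  simp only [trn, cut_eq_one hρ (hβ t htt), mul_one]

variable {Λ : Finset (V d)} {W : V d → V d × ℝ → ℝ} {K Mx r : ℝ}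

lemma lw_nonneg (h0 : ∀ ζ ∈ Λ, ∀ u, 0 ≤ W ζ u) {t₁ t₂ : ℝ} (ht : t₁ ≤ t₂) (β : Ph d) :
    0 ≤ lw Λ K W t₁ t₂ β :=
  Finset.sum_nonneg fun ζ hζ => mul_nonneg (Real.exp_pos _).le (xray_nonneg (h0 ζ hζ) ht β)

lemma lw_close (hW : ∀ ζ ∈ Λ, Nice (W ζ) Mx r) (hr : 0 < r) (hK : 0 ≤ K) {t₁ t₂ : ℝ}
    (ht : t₁ ≤ t₂) {β β' : Ph d} (hc : ∀ t ∈ Icc t₁ t₂, ‖pos t (β - β')‖ ≤ r)
    (hd : K * ‖β.2 - β'.2‖ ≤ 1) : lw Λ K W t₁ t₂ β ≤ Real.exp 2 * lw Λ K W t₁ t₂ β' := by
  unfold lw
  rw [Finset.mul_sum]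
  refine Finset.sum_le_sum fun ζ hζ => ?_
  have h1 := xray_close (hW ζ hζ) hr ht hc
  rw [div_self hr.ne'] at h1
  have h2 : Real.exp (-K * ‖β.2 - ζ‖) ≤ Real.exp 1 * Real.exp (-K * ‖β'.2 - ζ‖) := by
    rw [← Real.exp_add, Real.exp_le_exp]
    have : ‖β'.2 - ζ‖ ≤ ‖β.2 - β'.2‖ + ‖β.2 - ζ‖ := by
      rw [norm_sub_rev β.2 β'.2]; exact norm_sub_le_norm_sub_add_norm_sub _ _ _
    nlinarith
  have h3 := xray_nonneg (fun u => ((hW ζ hζ).2.1 u).1) ht β
  calc _ ≤ (Real.exp 1 * Real.exp (-K * ‖β'.2 - ζ‖)) * (Real.exp 1 * xray (W ζ) t₁ t₂ β') :=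
        mul_le_mul h2 h1 h3 (by positivity)
    _ = _ := by
        rw [show (2 : ℝ) = 1 + 1 by norm_num, Real.exp_add]; ring

lemma continuous_lw_shift (hW : ∀ ζ ∈ Λ, Continuous (W ζ)) (t₁ t₂ : ℝ) (β : Ph d) :
    Continuous fun e : V d => lw Λ K W t₁ t₂ (β + (e, 0)) :=
  (continuous_lw hW K t₁ t₂).comp (by fun_prop)

lemma lw_avg_le (hW : ∀ ζ ∈ Λ, Nice (W ζ) Mx r) {r' t₁ t₂ : ℝ} (hr : 0 < r') (ht : t₁ ≤ t₂)
    (β : Ph d) (hβ : ‖β.2‖ ≤ 3) :
    ∫ e in closedBall (0 : V d) (r' / 2), lw Λ K W t₁ t₂ (β + (e, 0)) ≤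
      6 * r' ^ d * lw Λ K (fun ζ => bavg (W ζ) r') (t₁ - r') (t₂ + r') β := by
  unfold lw
  simp only [Prod.snd_add, add_zero]
  rw [integral_finsetSum _ fun ζ hζ => Integrable.const_mul
    ((continuous_xray_shift (hW ζ hζ).1 t₁ t₂ β).continuousOn.integrableOn_compact
      (isCompact_closedBall _ _)) _, Finset.mul_sum]
  refine Finset.sum_le_sum fun ζ hζ => ?_
  rw [integral_const_mul, mul_left_comm]
  exact mul_le_mul_of_nonneg_left
    (avg_le (hW ζ hζ).1 (fun u => ((hW ζ hζ).2.1 u).1) hr ht β hβ) (Real.exp_pos _).le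

/-- weighted square oscillation -/
noncomputable def Dv (Λ : Finset (V d)) (K : ℝ) (g : V d → V d × ℝ → ℝ) (t₁ t₂ : ℝ) (β : Ph d)
    (e : V d) : ℝ :=
  ∑ ζ ∈ Λ, kap K ζ β.2 * (xray (g ζ) t₁ t₂ β - xray (g ζ) t₁ t₂ (β + (e, 0))) ^ 2

lemma Dv_nonneg (g : V d → V d × ℝ → ℝ) (t₁ t₂ : ℝ) (β : Ph d) (e : V d) :
    0 ≤ Dv Λ K g t₁ t₂ β e :=
  Finset.sum_nonneg fun _ _ => mul_nonneg (Real.exp_pos _).le (sq_nonneg _)

lemma continuous_term {g : V d × ℝ → ℝ} (hg : Continuous g) (K : ℝ) (ζ : V d) (t₁ t₂ : ℝ) :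
    Continuous fun q : Ph d × V d =>
      kap K ζ q.1.2 * (xray g t₁ t₂ q.1 - xray g t₁ t₂ (q.1 + (q.2, 0))) ^ 2 := by
  have h1 := continuous_kap K ζ
  have h2 := continuous_xray hg t₁ t₂
  fun_prop

lemma continuous_Dv {g : V d → V d × ℝ → ℝ} (hg : ∀ ζ ∈ Λ, Continuous (g ζ)) (t₁ t₂ : ℝ) :
    Continuous fun q : Ph d × V d => Dv Λ K g t₁ t₂ q.1 q.2 :=
  continuous_finsetSum Λ fun ζ hζ => continuous_term (hg ζ hζ) K ζ t₁ t₂

/-- lines with a large oscillation -/
def SS (Λ : Finset (V d)) (K : ℝ) (W : V d → V d × ℝ → ℝ) (C₁ a ρ r' t₁ t₂ : ℝ) : Set (Ph d) :=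
  {β | ENNReal.ofReal (a ^ 2) * volume (closedBall (0 : V d) (r' / 2)) ≤
    ∫⁻ e in closedBall (0 : V d) (r' / 2), ENNReal.ofReal (C₁ * Dv Λ K (trn W ρ) t₁ t₂ β e)}

lemma measurable_D (hW : ∀ ζ ∈ Λ, Continuous (W ζ)) (C₁ ρ t₁ t₂ : ℝ) :
    Measurable fun q : Ph d × V d => ENNReal.ofReal (C₁ * Dv Λ K (trn W ρ) t₁ t₂ q.1 q.2) :=
  ENNReal.measurable_ofReal.comp (continuous_const.mul
    (continuous_Dv (fun ζ hζ => continuous_trn (hW ζ hζ) ρ) t₁ t₂)).measurable

lemma measurableSet_SS (hW : ∀ ζ ∈ Λ, Continuous (W ζ)) (C₁ a ρ r' t₁ t₂ : ℝ) :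
    MeasurableSet (SS Λ K W C₁ a ρ r' t₁ t₂) :=
  measurableSet_le measurable_const (measurable_D hW C₁ ρ t₁ t₂).lintegral_prod_right'

lemma vol_SS (hW : ∀ ζ ∈ Λ, Nice (W ζ) Mx r) (hK : 0 < K) (hM : 0 ≤ Mx) {C₁ a ρ ρ' r' t₁ l : ℝ}
    (hC : 0 ≤ C₁) (hΛ : (Λ.card : ℝ) ≤ C₁ * K ^ d) (hρ : 0 < ρ) (hr : 0 < r') (hl : 0 < l)
    (hρ' : 2 * ρ + r' / 2 ≤ ρ') :
    ENNReal.ofReal (a ^ 2) * volume (SS Λ K W C₁ a ρ r' t₁ (t₁ + l)) ≤
      ENNReal.ofReal (6 * II0 d * C₁ ^ 2 * l * Mx ^ 2 * (volume (closedBall (0 : V d) ρ')).toReal *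
        Real.sqrt (K * r' * l)) := by
  have hI := II0_nonneg d
  have hm := measurable_D (K := K) (fun ζ hζ => (hW ζ hζ).1) C₁ ρ t₁ (t₁ + l)
  set B := closedBall (0 : V d) (r' / 2) with hB
  set Q := l * (Mx * (volume (closedBall (0 : V d) ρ')).toReal *
        (Mx * (2 * II0 d / K ^ d) * (3 * Real.sqrt (K * r' * l)))) with hQ
  have hQ0 : 0 ≤ Q := by positivity
  have h1 := mul_meas_ge_le_lintegral (μ := volume) (hm.lintegral_prod_right' (ν := volume.restrict B))
    (ENNReal.ofReal (a ^ 2) * volume B)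
  have h2 : ∀ e ∈ B, ∫⁻ β, ENNReal.ofReal (C₁ * Dv Λ K (trn W ρ) t₁ (t₁ + l) β e) ≤
      ENNReal.ofReal (C₁ * (Λ.card * Q)) := fun e he => by
    rw [hB, mem_closedBall, dist_zero_right] at he
    simp only [ENNReal.ofReal_mul hC]
    rw [lintegral_const_mul' _ _ ENNReal.ofReal_ne_top]
    refine mul_le_mul' le_rfl ?_
    unfold Dv
    simp only [ENNReal.ofReal_sum_of_nonneg fun ζ _ =>
      mul_nonneg (show 0 ≤ kap K ζ _ from (Real.exp_pos _).le) (sq_nonneg _)]
    rw [lintegral_finsetSum (f := fun ζ (β : Ph d) => ENNReal.ofReal (kap K ζ β.2 *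
      (xray (trn W ρ ζ) t₁ (t₁ + l) β - xray (trn W ρ ζ) t₁ (t₁ + l) (β + (e, 0))) ^ 2)) _
      fun ζ hζ => ENNReal.measurable_ofReal.comp
      ((continuous_term (continuous_trn (hW ζ hζ).1 ρ) K ζ t₁ (t₁ + l)).comp
        (Continuous.prodMk_left e)).measurable]
    refine (Finset.sum_le_card_nsmul _ _ (ENNReal.ofReal Q) fun ζ hζ => ?_).trans (le_of_eq ?_)
    · refine cordoba (continuous_trn (hW ζ hζ).1 ρ) (ρ := 2 * ρ) (fun u => ⟨mul_nonneg
        ((hW ζ hζ).2.1 u).1 (cut_nonneg _ _), ?_⟩) (fun x t hx => ?_) hK ζ e hl (by positivity)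
        (by nlinarith) (by linarith)
      · exact (mul_le_of_le_one_right ((hW ζ hζ).2.1 u).1 (cut_le_one _ _)).trans
          ((hW ζ hζ).2.1 u).2
      · simp only [trn, cut_eq_zero hρ hx, mul_zero]
    · rw [nsmul_eq_mul, ENNReal.ofReal_mul (Nat.cast_nonneg _), ENNReal.ofReal_natCast]
  rw [lintegral_lintegral_swap (f := fun β e =>
    ENNReal.ofReal (C₁ * Dv Λ K (trn W ρ) t₁ (t₁ + l) β e)) hm.aemeasurable] at h1
  have h3 := h1.trans (setLIntegral_mono' measurableSet_closedBall h2)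
  rw [setLIntegral_const, mul_right_comm] at h3
  have hB0 : volume B ≠ 0 := (measure_closedBall_pos volume _ (by positivity)).ne'
  refine ((ENNReal.mul_le_mul_iff_left hB0 measure_closedBall_lt_top.ne).1 h3).trans
    (ENNReal.ofReal_le_ofReal ?_)
  refine (mul_le_mul_of_nonneg_left (mul_le_mul_of_nonneg_right hΛ hQ0) hC).trans (le_of_eq ?_)
  rw [hQ]
  field_simp
  ring

/-- lines close to a bad line oscillate -/
lemma mem_SS (hW : ∀ ζ ∈ Λ, Nice (W ζ) Mx r) (hr : 0 < r) (hK : 0 ≤ K) {C C₁ a ρ r' t₁ t₂ : ℝ}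
    (hΛ : ∀ ξ : V d, ∑ ζ ∈ Λ, Real.exp (-K * ‖ξ - ζ‖) ≤ C₁) (ha : 0 ≤ a) (hρ : 0 < ρ)
    (hr' : 0 < r') (ht : t₁ ≤ t₂) (hC1 : Real.exp 2 ≤ C)
    (hC2 : Real.exp 2 * Real.exp 2 * (6 * r' ^ d) ≤
      C * (volume (closedBall (0 : V d) (r' / 2))).toReal)
    {β β' : Ph d} (hβ : ‖β.2‖ ≤ 3)
    (hbad : C * lw Λ K (fun ζ => bavg (W ζ) r') (t₁ - r') (t₂ + r') β + C * a ≤ lw Λ K W t₁ t₂ β)
    (hc : ∀ t ∈ Icc t₁ t₂, ‖pos t (β - β')‖ ≤ r) (hd : K * ‖β.2 - β'.2‖ ≤ 1)
    (hin : ∀ t ∈ Icc t₁ t₂, ‖pos t β'‖ + r' / 2 ≤ ρ) : β' ∈ SS Λ K W C₁ a ρ r' t₁ t₂ := by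
  have hWc : ∀ ζ ∈ Λ, Continuous (W ζ) := fun ζ hζ => (hW ζ hζ).1
  have hC : 0 ≤ C₁ := (Finset.sum_nonneg fun _ _ => (Real.exp_pos _).le).trans (hΛ 0)
  set B := closedBall (0 : V d) (r' / 2) with hB
  have hBc : IsCompact B := isCompact_closedBall _ _
  set v := (volume B).toReal with hv
  have hv0 : 0 ≤ v := ENNReal.toReal_nonneg
  set Lb := lw Λ K (fun ζ => bavg (W ζ) r') (t₁ - r') (t₂ + r') β with hLb
  have hLb0 : 0 ≤ Lb := lw_nonneg (fun ζ hζ u =>
    bavg_nonneg (fun u => ((hW ζ hζ).2.1 u).1) hr'.le u) (by linarith) β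
  have i1 : ∀ γ : Ph d, IntegrableOn (fun e : V d => lw Λ K W t₁ t₂ (γ + (e, 0))) B := fun γ =>
    (continuous_lw_shift hWc t₁ t₂ γ).continuousOn.integrableOn_compact hBc
  have i2 : IntegrableOn (fun e => C₁ * Dv Λ K (trn W ρ) t₁ t₂ β' e) B :=
    (continuous_const.mul ((continuous_Dv (fun ζ hζ => continuous_trn (hWc ζ hζ) ρ) t₁ t₂).comp
      (Continuous.prodMk_right β'))).continuousOn.integrableOn_compact hBc
  have i3 : ∀ c : ℝ, IntegrableOn (fun _ : V d => c) B := fun c =>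
    integrableOn_const measure_closedBall_lt_top.ne
  have h1 := lw_close hW hr hK ht hc hd
  have h2 : ∫ e in B, lw Λ K W t₁ t₂ (β' + (e, 0)) ≤ Real.exp 2 * (6 * r' ^ d * Lb) := by
    refine le_trans ?_ (mul_le_mul_of_nonneg_left (lw_avg_le hW hr' ht β hβ) (Real.exp_pos 2).le)
    rw [← integral_const_mul]
    refine integral_mono (i1 β') ((i1 β).const_mul _) fun e => lw_close hW hr hK ht
      (fun t htt => ?_) ?_
    · rw [add_sub_add_right_eq_sub, pos_sub, norm_sub_rev, ← pos_sub]; exact hc t htt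
    · simp only [Prod.snd_add, add_zero]; rwa [norm_sub_rev]
  have h3 : ∀ e ∈ B, 2 * a * (lw Λ K W t₁ t₂ β' - lw Λ K W t₁ t₂ (β' + (e, 0))) ≤
      a ^ 2 + C₁ * Dv Λ K (trn W ρ) t₁ t₂ β' e := fun e he => by
    rw [hB, mem_closedBall, dist_zero_right] at he
    have e1 : lw Λ K W t₁ t₂ β' - lw Λ K W t₁ t₂ (β' + (e, 0)) = ∑ ζ ∈ Λ, kap K ζ β'.2 *
        (xray (trn W ρ ζ) t₁ t₂ β' - xray (trn W ρ ζ) t₁ t₂ (β' + (e, 0))) := by
      unfold lw
      rw [← Finset.sum_sub_distrib]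
      refine Finset.sum_congr rfl fun ζ _ => ?_
      rw [xray_trn hρ ζ ht fun t htt => by linarith [hin t htt], xray_trn hρ ζ ht fun t htt => by
        rw [pos_shift]; linarith [hin t htt, norm_add_le (pos t β') e]]
      simp only [Prod.snd_add, add_zero, kap]
      ring
    have e2 : (lw Λ K W t₁ t₂ β' - lw Λ K W t₁ t₂ (β' + (e, 0))) ^ 2 ≤
        C₁ * Dv Λ K (trn W ρ) t₁ t₂ β' e := by
      rw [e1]
      refine le_trans (Finset.sum_sq_le_sum_mul_sum_of_sq_le_mul Λ (f := fun ζ => kap K ζ β'.2)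
        (g := fun ζ => kap K ζ β'.2 * (xray (trn W ρ ζ) t₁ t₂ β' -
          xray (trn W ρ ζ) t₁ t₂ (β' + (e, 0))) ^ 2)
        (fun _ _ => (Real.exp_pos _).le) (fun _ _ => mul_nonneg (Real.exp_pos _).le (sq_nonneg _))
        fun ζ _ => le_of_eq (by ring))
        (mul_le_mul_of_nonneg_right (hΛ β'.2) (Dv_nonneg _ _ _ _ _))
    nlinarith [sq_nonneg (lw Λ K W t₁ t₂ β' - lw Λ K W t₁ t₂ (β' + (e, 0)) - a)]
  have h4 := setIntegral_mono_on (((i3 _).sub (i1 β')).const_mul _) ((i3 _).add i2)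
    measurableSet_closedBall h3
  simp only [Pi.sub_apply, Pi.add_apply] at h4
  rw [integral_const_mul, integral_sub (i3 _) (i1 β'), integral_add (i3 _) i2, setIntegral_const,
    setIntegral_const, smul_eq_mul, smul_eq_mul, Measure.real, ← hv] at h4
  have he := Real.exp_pos 2
  have h5 : v * a ≤ v * lw Λ K W t₁ t₂ β' - ∫ e in B, lw Λ K W t₁ t₂ (β' + (e, 0)) := by
    refine le_of_mul_le_mul_left ?_ he
    have k1 := mul_le_mul_of_nonneg_left (hbad.trans h1) hv0
    have k2 := mul_le_mul_of_nonneg_left h2 he.le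
    have k3 := mul_le_mul_of_nonneg_right hC2 hLb0
    have k4 := mul_le_mul_of_nonneg_right hC1 (mul_nonneg hv0 ha)
    nlinarith
  have h6 : a ^ 2 * v ≤ ∫ e in B, C₁ * Dv Λ K (trn W ρ) t₁ t₂ β' e := by
    nlinarith [mul_le_mul_of_nonneg_left h5 ha]
  change ENNReal.ofReal (a ^ 2) * volume B ≤ _
  rw [← ofReal_integral_eq_lintegral_ofReal i2
    (.of_forall fun e => mul_nonneg hC (Dv_nonneg _ _ _ _ _)),
    ← ENNReal.ofReal_toReal (measure_closedBall_lt_top.ne : volume B ≠ ⊤),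
    ← ENNReal.ofReal_mul (sq_nonneg _)]
  exact ENNReal.ofReal_le_ofReal h6

end Crest.Agent.N76.II.AV
end

-- ▼ part N76/II/AV/Main
section

/-! # Row 76, leaf AV (helper98). -/

set_option autoImplicit false

open MeasureTheory Set Metric
open scoped ENNReal RealInnerProductSpace

namespace Crest.Agent.N76.II

open Crest.Agent.N76.Red (V)
open Crest.Agent.N76.G
open AV

theorem av (d : ℕ) : AV d := by
  classical
  set v := (volume (ball (0 : V d) 1)).toReal with hv
  have hv0 : 0 < v := ENNReal.toReal_pos (measure_ball_pos volume _ one_pos).ne'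
    measure_ball_lt_top.ne
  set w := (volume (ball (0 : V d × ℝ) 1)).toReal with hw
  have hw0 : 0 < w := ENNReal.toReal_pos (measure_ball_pos volume _ one_pos).ne'
    measure_ball_lt_top.ne
  have hI := II0_nonneg d
  have he := Real.exp_pos 2
  set C : ℝ := Real.exp 2 + Real.exp 2 * Real.exp 2 * (6 * 2 ^ d) / v +
    12 * II0 d * 62 ^ d * 2 ^ d * 32 ^ (d + 1) / w with hC
  have c1 : 0 ≤ Real.exp 2 * Real.exp 2 * (6 * 2 ^ d) / v := by positivity
  have c2 : 0 ≤ 12 * II0 d * 62 ^ d * 2 ^ d * 32 ^ (d + 1) / w := by positivity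
  have hC1 : Real.exp 2 ≤ C := by linarith
  have hC2 : Real.exp 2 * Real.exp 2 * (6 * 2 ^ d) / v ≤ C := by linarith
  have hC3 : 12 * II0 d * 62 ^ d * 2 ^ d * 32 ^ (d + 1) / w ≤ C := by linarith
  refine ⟨C, (Real.one_le_exp (by norm_num)).trans hC1, ?_⟩
  intro Λ W K C₁ Mx r r' r'' t₁ l R τ φ aj Dm hK hC₁ hΛ hΛ' hM hW hr'' hr''r hr''l hr' hr'l hlR hτ hφ
    haj hD0 hD hla ι X p hX
  have hWc : ∀ ζ ∈ Λ, Continuous (W ζ) := fun ζ hζ => (hW ζ hζ).1
  have hl : 0 < l := by linarith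
  have hR : 0 < R := by linarith
  have hr : 0 < r := by linarith
  have haj0 : 0 < aj := by linarith
  have hcb : ∀ s : ℝ, 0 ≤ s → (volume (closedBall (0 : V d) s)).toReal = s ^ d * v := fun s hs => by
    rw [Measure.addHaar_closedBall _ _ hs, finrank_euclideanSpace_fin, ENNReal.toReal_mul,
      ENNReal.toReal_ofReal (by positivity)]
  set a := τ * Mx * l with ha
  have ha0 : 0 < a := by positivity
  set Bad : Set (Ph d) := {β | C * lw Λ K (fun ζ => bavg (W ζ) r') (t₁ - r') (t₁ + l + r') β +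
    C * a < lw Λ K W t₁ (t₁ + l) β} with hBad
  set P : ι → Prop := fun z => ∃ F : Finset (V d), (F.card : ℝ) ≤ φ * aj ^ d ∧
    ∀ β ∈ Bad, ‖β.2‖ ≤ 3 → ‖pos (p z).2 β - (p z).1‖ ≤ Dm → ∃ ζ ∈ F, ‖β.2 - ζ‖ ≤ 1 / aj with hP
  refine ⟨Bad, X.filter fun z => ¬ P z, ?_, ?_, fun z hz hzE => ?_, fun β hβ _ => ?_⟩
  · refine (isOpen_lt ?_ (continuous_lw hWc _ _ _)).measurableSet
    exact (continuous_const.mul (continuous_lw (fun ζ hζ => continuous_bavg (hWc ζ hζ) r')
      _ _ _)).add continuous_const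
  rotate_left
  · by_contra h
    exact hzE (Finset.mem_filter.2 ⟨hz, h⟩)
  · simp only [hBad, mem_ofPred_eq, not_lt] at hβ
    refine hβ.trans (le_of_eq ?_)
    rw [ha]; ring
  set S := SS Λ K W C₁ a (30 * R) r' t₁ (t₁ + l) with hS
  have hSm : MeasurableSet S := measurableSet_SS hWc _ _ _ _ _ _
  have hSv := vol_SS hW (by linarith : 0 < K) hM.le (a := a) (ρ := 30 * R) (ρ' := 62 * R)
    (t₁ := t₁) hC₁ hΛ (by positivity) hr' hl (by linarith)
  rw [hcb _ (by positivity), ← hS] at hSv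
  set η := r'' / 32 with hη
  have hη0 : 0 < η := by positivity
  -- richness
  have hrich : ∀ z ∈ X.filter fun z => ¬ P z, ∀ u ∈ ball (p z) η,
      ENNReal.ofReal (φ * v / 2 ^ d) ≤ volume {ξ : V d | lin u ξ ∈ S} := fun z hz u hu => by
    obtain ⟨hzX, hz⟩ := Finset.mem_filter.1 hz
    obtain ⟨hx, ht1, ht2⟩ := hX z hzX
    obtain ⟨F, hF1, hF2, hF3⟩ := exists_sep_net
      {ξ | ∃ β ∈ Bad, ‖β.2‖ ≤ 3 ∧ ‖pos (p z).2 β - (p z).1‖ ≤ Dm ∧ β.2 = ξ}
      (by rintro ξ ⟨β, -, h, -, rfl⟩; exact h) (δ := 1 / aj) (by positivity)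
    have hcard : φ * aj ^ d < F.card := by
      by_contra h
      exact hz ⟨F, not_lt.1 h, fun β h1 h2 h3 => hF3 _ ⟨β, h1, h2, h3, rfl⟩⟩
    have hu1 : ‖u.1 - (p z).1‖ < η := by
      rw [← dist_eq_norm]; exact (le_max_left _ _).trans_lt (mem_ball.1 hu)
    have hu2 : |u.2 - (p z).2| < η := by
      rw [← Real.dist_eq]; exact (le_max_right _ _).trans_lt (mem_ball.1 hu)
    have h1 := card_mul_le volume F id (δ := 1 / (2 * aj)) (fun c hc c' hc' hne => by
        have := hF2 c hc c' hc' hne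
        rw [show 2 * (1 / (2 * aj)) = 1 / aj by field_simp]
        exact this) (g := fun _ => 1) (m := ENNReal.ofReal ((1 / (2 * aj)) ^ d * v))
      (fun c _ => by
        rw [setLIntegral_one, Measure.addHaar_ball_of_pos _ _ (by positivity),
          finrank_euclideanSpace_fin, ENNReal.ofReal_mul (by positivity), hv,
          ENNReal.ofReal_toReal measure_ball_lt_top.ne])
      (U := {ξ : V d | lin u ξ ∈ S}) (fun c hc ξ hξ => by
        obtain ⟨β, hβ, hβ3, hβD, rfl⟩ := hF1 c hc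
        have hξ' : ‖β.2 - ξ‖ ≤ 1 / (2 * aj) := by
          rw [norm_sub_rev, ← dist_eq_norm]; exact (mem_ball.1 hξ).le
        have h2aj : 1 / (2 * aj) ≤ 1 / 2 := by
          rw [div_le_div_iff₀ (by positivity) (by positivity)]; linarith
        have hξ4 : ‖ξ‖ ≤ 4 := by
          have := norm_sub_norm_le ξ β.2
          rw [norm_sub_rev] at this
          linarith
        refine mem_SS hW hr (by linarith) hΛ' ha0.le (by positivity) hr' (by linarith) hC1 ?_ hβ3
          (le_of_lt hβ) (fun t ht => ?_) ?_ (fun t ht => ?_)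
        · rw [hcb _ (by positivity)]
          rw [div_le_iff₀ hv0] at hC2
          calc _ = (Real.exp 2 * Real.exp 2 * (6 * 2 ^ d)) * (r' / 2) ^ d := by
                rw [div_pow]; field_simp
            _ ≤ (C * v) * (r' / 2) ^ d := by gcongr
            _ = _ := by ring
        · have e1 : pos t (β - lin u ξ) = (pos (p z).2 β - (p z).1) - (u.1 - (p z).1)
              - (2 * (t - (p z).2)) • (β.2 - ξ) - (2 * (u.2 - (p z).2)) • ξ := by
            rw [pos_sub, pos_lin']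
            simp only [pos, mul_sub, sub_smul, smul_sub]
            abel
          have b1 : |t - (p z).2| ≤ l := by
            rw [abs_le]; constructor <;> linarith [ht.1, ht.2]
          have b2 : ‖(2 * (t - (p z).2)) • (β.2 - ξ)‖ ≤ l / aj := by
            rw [norm_smul, Real.norm_eq_abs, abs_mul, abs_two]
            calc _ ≤ 2 * l * (1 / (2 * aj)) := by gcongr
              _ = _ := by field_simp
          have b3 : ‖(2 * (u.2 - (p z).2)) • ξ‖ ≤ 2 * η * 4 := by
            rw [norm_smul, Real.norm_eq_abs, abs_mul, abs_two]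
            gcongr
          rw [e1]
          refine (norm_sub_le _ _).trans ((add_le_add (norm_sub_le _ _) le_rfl).trans ?_)
          have := norm_sub_le (pos (p z).2 β - (p z).1) (u.1 - (p z).1)
          linarith
        · change K * ‖β.2 - ξ‖ ≤ 1
          calc _ ≤ aj * (1 / (2 * aj)) := by gcongr
            _ = 1 / 2 := by field_simp
            _ ≤ 1 := by norm_num
        · rw [pos_lin']
          have b1 : |t - u.2| ≤ l + η := by
            rw [abs_lt] at hu2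
            rw [abs_le]; constructor <;> linarith [ht.1, ht.2]
          have b2 : ‖(2 * (t - u.2)) • ξ‖ ≤ 2 * (l + η) * 4 := by
            rw [norm_smul, Real.norm_eq_abs, abs_mul, abs_two]
            gcongr
          have b3 := norm_sub_norm_le u.1 (p z).1
          have := norm_sub_le u.1 ((2 * (t - u.2)) • ξ)
          linarith)
    rw [setLIntegral_one] at h1
    refine le_trans ?_ h1
    rw [← ENNReal.ofReal_natCast, ← ENNReal.ofReal_mul (Nat.cast_nonneg _)]
    refine ENNReal.ofReal_le_ofReal ?_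
    calc φ * v / 2 ^ d = φ * aj ^ d * ((1 / (2 * aj)) ^ d * v) := by
          rw [div_pow, mul_pow, one_pow]; field_simp
      _ ≤ _ := by gcongr
  obtain ⟨T, hT1, hT2, hT3⟩ := exists_net (X.filter fun z => ¬ P z) p hr''
  refine ⟨T.image p, ?_, fun z hz => ?_⟩
  swap
  · obtain ⟨c, hc, h⟩ := hT3 z hz
    exact ⟨p c, Finset.mem_image_of_mem p hc, h.le⟩
  refine (Nat.cast_le.2 Finset.card_image_le).trans ?_
  have h1 := card_le_of_rich hSm T p (η := η) (t₁ := t₁ - η) (t₂ := t₁ + l + η)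
    (fun c hc c' hc' hne => le_trans (by linarith) (hT2 c hc c' hc' hne))
    (fun c hc => by
      obtain ⟨-, h1, h2⟩ := hX c (Finset.mem_filter.1 (hT1 hc)).1
      constructor <;> linarith)
    (fun c hc => hrich c (hT1 hc))
  have h2 := (mul_le_mul' (le_refl (ENNReal.ofReal (a ^ 2))) h1).trans_eq (mul_left_comm _ _ _)
  have h3 := h2.trans (mul_le_mul' (ENNReal.ofReal_le_ofReal (show _ ≤ 2 * l by linarith)) hSv)
  rw [Measure.addHaar_ball_of_pos _ _ hη0, finrank_st,
    ← ENNReal.ofReal_toReal (measure_ball_lt_top.ne : volume (ball (0 : V d × ℝ) 1) ≠ ⊤), ← hw,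
    ← ENNReal.ofReal_natCast, ← ENNReal.ofReal_mul (by positivity),
    ← ENNReal.ofReal_mul (by positivity), ← ENNReal.ofReal_mul (by positivity),
    ← ENNReal.ofReal_mul (by positivity), ← ENNReal.ofReal_mul (by positivity),
    ENNReal.ofReal_le_ofReal_iff (by positivity)] at h3
  have hs : Real.sqrt (K * r' * l) = Real.sqrt (K * r' / l) * l := by
    rw [show K * r' * l = K * r' / l * l ^ 2 by field_simp, Real.sqrt_mul (by positivity),
      Real.sqrt_sq hl.le]
  rw [hs] at h3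
  set s := Real.sqrt (K * r' / l) with hs'
  have hs0 : 0 ≤ s := Real.sqrt_nonneg _
  rw [le_div_iff₀ (by positivity)]
  calc (T.card : ℝ) * (τ ^ 2 * φ * r'' ^ (d + 1)) =
        (a ^ 2 * (T.card * (φ * v / 2 ^ d * (η ^ (d + 1) * w)))) *
          (2 ^ d * 32 ^ (d + 1) / (w * v * Mx ^ 2 * l ^ 2)) := by
        rw [ha, hη, div_pow]; field_simp
    _ ≤ (2 * l * (6 * II0 d * C₁ ^ 2 * l * Mx ^ 2 * ((62 * R) ^ d * v) * (s * l))) *
          (2 ^ d * 32 ^ (d + 1) / (w * v * Mx ^ 2 * l ^ 2)) := by gcongr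
    _ = (12 * II0 d * 62 ^ d * 2 ^ d * 32 ^ (d + 1) / w) * C₁ ^ 2 * s * R ^ d * l := by
        rw [mul_pow]; field_simp; ring
    _ ≤ _ := by gcongr

end Crest.Agent.N76.II
end

-- ▼ part N76/II/LP/Fin

/-! # Row 76: Lemma P from the sparse gain (helper16). -/

set_option autoImplicit false

namespace Crest.Agent.N76.II

theorem lp_of_sg (d : ℕ) (hd : 1 ≤ d) (hSG : SG d) : LP d :=
  LP.lp_of d hd (cd_of d hd hSG) (l0_of d hd (lb d) (phiB d hd) (stop d hd)) (av d) hSG
    (ut_of d hd (av d) hSG (ch d)) (ch d)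

end Crest.Agent.N76.II
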